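import Mathlib

/-!
Definitions used in the statement of the hand-in for P180: blocks, block algebras,
defect groups in the sense of Higman's criterion, and p-solvability.
-/

namespace Vale.Agent.P180

universe u

variable {k : Type u} [Field k]

/-- A primitive idempotent of the centre of an algebra. -/
structure IsBlock {A : Type u} [Ring A] (b : A) : Prop where
  ne_zero : b ≠ 0
  idem : IsIdempotentElem b
  central : ∀ x, Commute b x
  primitive : ∀ c : A, IsIdempotentElem c → (∀ x, Commute c x) → c * b = c → c = 0 ∨ c = b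

variable {A : Type u} [Ring A] [Algebra k A]

/-- The `k`-algebra structure on a corner ring `bAb`, with unit `b`: the scalar `r` goes to `r • b`.
-/
noncomputable instance cornerAlgebra {b : A} (hb : IsIdempotentElem b) : Algebra k hb.Corner where
  smul r x := ⟨r • x.1, (Subsemigroup.mem_corner_iff hb).2
    ⟨by rw [mul_smul_comm, ((Subsemigroup.mem_corner_iff hb).1 x.2).1],
     by rw [smul_mul_assoc, ((Subsemigroup.mem_corner_iff hb).1 x.2).2]⟩⟩
  algebraMap :=
  { toFun := fun r => ⟨r • b, (Subsemigroup.mem_corner_iff hb).2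
      ⟨by rw [mul_smul_comm, hb.eq], by rw [smul_mul_assoc, hb.eq]⟩⟩
    map_one' := Subtype.ext (one_smul k b)
    map_mul' := fun r s => Subtype.ext (show (r * s) • b = (r • b) * (s • b) by
      rw [smul_mul_smul_comm, hb.eq])
    map_zero' := Subtype.ext (zero_smul k b)
    map_add' := fun r s => Subtype.ext (add_smul r s b) }
  commutes' r x := Subtype.ext (show r • b * x.1 = x.1 * r • b by
    rw [smul_mul_assoc, mul_smul_comm, ((Subsemigroup.mem_corner_iff hb).1 x.2).1,
      ((Subsemigroup.mem_corner_iff hb).1 x.2).2])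
  smul_def' r x := Subtype.ext (show r • x.1 = r • b * x.1 by
    rw [smul_mul_assoc, ((Subsemigroup.mem_corner_iff hb).1 x.2).1])

variable (p : ℕ)

/-- `b` lies in the image `Tr_D^G((kG)^D)` of the relative trace map. -/
def IsRelTrace (k : Type u) [Field k] {G : Type} [Group G] [Fintype G]
    (D : Subgroup G) [Fintype (G ⧸ D)] (b : MonoidAlgebra k G) : Prop :=
  ∃ a : MonoidAlgebra k G,
    (∀ h : D, MonoidAlgebra.of k G h * a = a * MonoidAlgebra.of k G h) ∧
    b = ∑ q : G ⧸ D, MonoidAlgebra.of k G q.out * a * MonoidAlgebra.of k G q.out⁻¹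

/-- `D` is a defect group of `b` (Higman's criterion): it is minimal with `b` in
`Tr_D^G((kG)^D)`. -/
def IsDefectGroup (k : Type u) [Field k] {G : Type} [Group G] [Fintype G]
    (D : Subgroup G) (b : MonoidAlgebra k G) : Prop :=
  haveI := fun E : Subgroup G => Fintype.ofFinite (G ⧸ E)
  Minimal (fun E : Subgroup G => IsRelTrace k E b) D

/-- `G` is p-solvable: it has a finite normal series all of whose factors have order a power of p
or prime to p. -/
def IsPSolvable (G : Type) [Group G] : Prop :=
  ∃ (n : ℕ) (f : ℕ → Subgroup G), f 0 = ⊥ ∧ f n = ⊤ ∧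
    ∀ i < n, f i ≤ f (i + 1) ∧ (f i).Normal ∧
      ((∃ j, (f i).relIndex (f (i + 1)) = p ^ j) ∨ Nat.Coprime p ((f i).relIndex (f (i + 1))))

end Vale.Agent.P180
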