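import Vale.Agent.P180.Twisted

/-!
Modules over p-groups in characteristic p, and the bound on normal p-subgroups.
-/

namespace Vale.Agent.P180

universe u

open Module

/-- A nonzero representation of a finite p-group in characteristic p has a nonzero fixed
vector. -/
theorem exists_fixed_vector {p : ℕ} [Fact p.Prime] {k : Type u} [Field k] [CharP k p]
    {Q : Type} [Group Q] [Finite Q] (hQ : IsPGroup p Q) {V : Type u} [AddCommGroup V] [Module k V]
    (ρ : Representation k Q V) {v : V} (hv : v ≠ 0) :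
    ∃ w : V, w ≠ 0 ∧ ∀ q, ρ q w = w := by
  let : Algebra (ZMod p) k := ZMod.algebra k p
  let : Module (ZMod p) V := Module.compHom V (algebraMap (ZMod p) k)
  let W : Submodule (ZMod p) V := Submodule.span (ZMod p) (Set.range fun q => ρ q v)
  have : Module.Finite (ZMod p) W :=
    Module.Finite.span_of_finite _ (Set.finite_range fun q => ρ q v)
  have : Finite W := Module.finite_of_finite (ZMod p)
  have stab : ∀ (q : Q) (w : V), w ∈ W → ρ q w ∈ W := by
    intro q w hw
    induction hw using Submodule.span_induction with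
    | mem x hx =>
      obtain ⟨r, rfl⟩ := hx
      exact Submodule.subset_span ⟨q * r, by simp only [map_mul]; rfl⟩
    | zero => simp
    | add x y _ _ ix iy => rw [map_add]; exact W.add_mem ix iy
    | smul r x _ ix =>
      have e : ρ q (r • x) = r • ρ q x := (ρ q).map_smul (algebraMap (ZMod p) k r) x
      rw [e]
      exact W.smul_mem r ix
  let : MulAction Q W :=
    { smul := fun q w => ⟨ρ q w, stab q w w.2⟩
      one_smul := fun w => Subtype.ext (by change ρ 1 (w : V) = w; rw [map_one]; rfl)
      mul_smul := fun q r w => Subtype.ext (by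
        change ρ (q * r) (w : V) = ρ q (ρ r w); rw [map_mul]; rfl) }
  have hcong := hQ.card_modEq_card_fixedPoints W
  have h0 : (0 : W) ∈ MulAction.fixedPoints Q W := fun q => Subtype.ext (map_zero (ρ q))
  have hnt : Nontrivial W :=
    ⟨⟨v, Submodule.subset_span ⟨1, by simp⟩⟩, 0, fun h => hv (congrArg Subtype.val h)⟩
  have hdvd : p ∣ Nat.card W := by
    rw [Module.natCard_eq_pow_finrank (K := ZMod p), Nat.card_zmod]
    exact dvd_pow_self p Module.finrank_pos.ne'
  have hdvd' : p ∣ Nat.card (MulAction.fixedPoints Q W) :=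
    Nat.modEq_zero_iff_dvd.1 (hcong.symm.trans (Nat.modEq_zero_iff_dvd.2 hdvd))
  have : Nonempty (MulAction.fixedPoints Q W) := ⟨⟨0, h0⟩⟩
  have hlt : 1 < Nat.card (MulAction.fixedPoints Q W) :=
    lt_of_lt_of_le (Fact.out : p.Prime).one_lt (Nat.le_of_dvd Nat.card_pos hdvd')
  have := Finite.one_lt_card_iff_nontrivial.1 hlt
  obtain ⟨⟨w, hw⟩, hne⟩ := exists_ne (⟨0, h0⟩ : MulAction.fixedPoints Q W)
  exact ⟨w, fun h => hne (Subtype.ext (Subtype.ext h)), fun q => congrArg Subtype.val (hw q)⟩

variable {k : Type u} [Field k] {G : Type} [Group G] [Finite G]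
variable {A : Type u} [Ring A] [Algebra k A]

/-- A twisted group algebra restricted to a p-subgroup is untwisted by a unique rescaling. -/
theorem TwBasis.exists_trivial [IsAlgClosed k] {p : ℕ} [Fact p.Prime] [CharP k p]
    (B : TwBasis k G A) {Q : Subgroup G} [hN : Q.Normal] (hQ : IsPGroup p Q) :
    ∃ t : Q → k, (∀ q, t q ≠ 0) ∧
      (∀ q r : Q, (t q • B.basis q.1) * (t r • B.basis r.1) = t (q * r) • B.basis (q * r).1) ∧
      ∀ (g : G) (q : Q), B.act g (t q • B.basis q.1) =
        t ⟨g * q * g⁻¹, hN.conj_mem q q.2 g⟩ • B.basis (g * q * g⁻¹) := by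
  classical
  have : Fintype Q := Fintype.ofFinite Q
  obtain ⟨e, he⟩ := IsPGroup.iff_card.1 hQ
  rw [Nat.card_eq_fintype_card] at he
  have hinj : ∀ x y : k, x ^ p ^ e = y ^ p ^ e → x = y := fun x y h =>
    iterateFrobenius_inj k p e (by simpa [iterateFrobenius_def] using h)
  let γ : Q → k := fun q => ∏ s : Q, B.c q.1 s.1
  have hγ : ∀ q, γ q ≠ 0 := fun q => Finset.prod_ne_zero_iff.2 fun s _ => B.c_ne _ _
  have hrel : ∀ q r : Q, B.c q.1 r.1 ^ p ^ e * γ (q * r) = γ q * γ r := by
    intro q r
    have h1 : ∏ s : Q, (B.c q.1 r.1 * B.c (q * r).1 s.1) =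
        ∏ s : Q, (B.c r.1 s.1 * B.c q.1 (r * s).1) := by
      refine Finset.prod_congr rfl fun s _ => ?_
      simpa using B.cocycle q.1 r.1 s.1
    rw [Finset.prod_mul_distrib, Finset.prod_mul_distrib, Finset.prod_const, Finset.card_univ,
      he] at h1
    rw [h1, mul_comm (γ q)]
    congr 1
    exact Fintype.prod_equiv (Equiv.mulLeft r) _ _ fun s => rfl
  have hpos : 0 < p ^ e := pow_pos (Fact.out : p.Prime).pos e
  choose t ht using fun q => IsAlgClosed.exists_pow_nat_eq (γ q)⁻¹ hpos
  have ht0 : ∀ q, t q ≠ 0 := by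
    intro q h
    have := ht q
    rw [h, zero_pow hpos.ne'] at this
    exact inv_ne_zero (hγ q) this.symm
  have hhom : ∀ q r : Q,
      (t q • B.basis q.1) * (t r • B.basis r.1) = t (q * r) • B.basis (q * r).1 := by
    intro q r
    rw [smul_mul_smul_comm, B.mul, smul_smul]
    congr 1
    apply hinj
    rw [mul_pow, mul_pow, ht, ht, ht]
    have hc := hrel q r
    have := hγ q
    have := hγ r
    have := hγ (q * r)
    field_simp
    linear_combination hc

  refine ⟨t, ht0, hhom, fun g => ?_⟩
  let cg : Q → Q := fun q => ⟨g * q * g⁻¹, hN.conj_mem q q.2 g⟩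
  have hl : ∀ q : Q, ∃ l : k, B.act g (t q • B.basis q.1) = l • (t (cg q) • B.basis (cg q).1) := by
    intro q
    obtain ⟨r, hr⟩ := B.act_basis g q.1
    refine ⟨t q * r * (t (cg q))⁻¹, ?_⟩
    rw [map_smul, hr, smul_smul, smul_smul, mul_assoc (t q * r), inv_mul_cancel₀ (ht0 _), mul_one]
  choose l hl using hl
  have hmul : ∀ q r, l (q * r) = l q * l r := by
    intro q r
    have h := congrArg (B.act g) (hhom q r)
    rw [map_mul, hl, hl, hl, smul_mul_smul_comm, hhom] at h
    have hc : cg q * cg r = cg (q * r) := Subtype.ext (by simp [cg])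
    rw [hc, smul_smul, smul_smul] at h
    exact (mul_right_cancel₀ (ht0 _) (B.smul_basis_inj h)).symm
  intro q
  have hne : ∀ q, l q ≠ 0 := by
    intro q hq
    have := hl q
    rw [hq, zero_smul] at this
    exact smul_ne_zero (ht0 q) (B.basis.ne_zero _) ((map_eq_zero_iff _ (B.act g).injective).1 this)
  have h1 : l 1 = 1 := by
    have := hmul 1 1
    rw [mul_one] at this
    exact mul_left_cancel₀ (hne 1) (by rw [mul_one]; exact this.symm)
  have hpow : ∀ n : ℕ, l q ^ n = l (q ^ n) := by
    intro n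
    induction n with
    | zero => simp [h1]
    | succ n ih => rw [pow_succ, ih, pow_succ, hmul]
  have hl1 : l q = 1 := by
    apply hinj
    rw [hpow, one_pow, ← he, pow_card_eq_one, h1]
  rw [hl, hl1, one_smul]

/-- A block with defect bound `d` forces normal p-subgroups to have at most `d` elements. -/
theorem TwBasis.card_le_of_bounded [IsAlgClosed k] {p : ℕ} [Fact p.Prime] [CharP k p]
    (B : TwBasis k G A) {b : A} (hb : IsBlock b) {d : ℕ} (hd : B.Bounded d b)
    {Q : Subgroup G} [hN : Q.Normal] (hQ : IsPGroup p Q) : Nat.card Q ≤ d := by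
  classical
  by_contra hcon
  rw [not_le] at hcon
  obtain ⟨t, ht0, hhom, hconj⟩ := B.exists_trivial hQ
  let w : Q → A := fun q => t q • B.basis q.1
  let I : Submodule k A := Submodule.span k {y | ∃ q x, y = (w q - 1) * x}
  have hIleft : ∀ g, ∀ y ∈ I, B.basis g * y ∈ I := by
    intro g y hy
    induction hy using Submodule.span_induction with
    | mem y hy =>
      obtain ⟨q, x, rfl⟩ := hy
      refine Submodule.subset_span ⟨⟨g * q * g⁻¹, hN.conj_mem q q.2 g⟩, B.basis g * x, ?_⟩
      rw [← mul_assoc, B.basis_mul g, map_sub, map_one, hconj g q, mul_assoc]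
    | zero => simp
    | add y z _ _ iy iz => rw [mul_add]; exact I.add_mem iy iz
    | smul r y _ iy => rw [mul_smul_comm]; exact I.smul_mem r iy
  have hIleft' : ∀ z, ∀ y ∈ I, z * y ∈ I := by
    intro z y hy
    rw [← B.basis.linearCombination_repr z, Finsupp.linearCombination_apply, Finsupp.sum,
      Finset.sum_mul]
    refine I.sum_mem fun g _ => ?_
    rw [smul_mul_assoc]
    exact I.smul_mem _ (hIleft g y hy)
  have w1 : w 1 = 1 := by
    have hu : IsUnit (w 1) := by
      have h0 : t 1 ≠ 0 := ht0 1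
      exact (isUnit_iff_exists.2 ⟨B.inv 1, B.mul_inv 1, B.inv_mul 1⟩).smul
        (Units.mk0 (t 1) h0)
    exact hu.mul_left_cancel ((hhom 1 1).trans (by rw [mul_one, mul_one]))
  obtain ⟨X, _, _, a, ha, hX, hsum⟩ := hd
  have hbI : b ∈ I := by
    rw [← hsum, ← Submodule.Quotient.mk_eq_zero I]
    change I.mkQ (∑ x, a x) = 0
    rw [map_sum]
    have hconst : ∀ (q : Q) (x : X), I.mkQ (a (q.1 • x)) = I.mkQ (a x) := by
      intro q x
      have e : w q * a x = a (q.1 • x) * w q := by
        simp only [w, smul_mul_assoc, mul_smul_comm, ha]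
      rw [Submodule.mkQ_apply, Submodule.mkQ_apply, Submodule.Quotient.eq]
      have h1 : (w q - 1) * a x ∈ I := Submodule.subset_span ⟨q, a x, rfl⟩
      have h2 : a (q.1 • x) * ((w q - 1) * 1) ∈ I :=
        hIleft' _ _ (Submodule.subset_span ⟨q, 1, rfl⟩)
      have h3 : a (q.1 • x) - a x = (w q - 1) * a x - a (q.1 • x) * ((w q - 1) * 1) := by
        rw [mul_one, _root_.sub_mul, mul_sub, one_mul, mul_one, e]; abel
      rw [h3]
      exact I.sub_mem h1 h2
    rw [← Finset.sum_fiberwise Finset.univ
      (fun x => (Quotient.mk'' x : MulAction.orbitRel.Quotient Q X))]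
    refine Finset.sum_eq_zero fun o _ => ?_
    induction o using Quotient.inductionOn' with
    | h x =>
      rw [Finset.sum_congr rfl (g := fun _ => I.mkQ (a x)) (fun y hy => ?_), Finset.sum_const]
      · have hc : (Finset.univ.filter fun y : X =>
            (Quotient.mk'' y : MulAction.orbitRel.Quotient Q X) = Quotient.mk'' x).card =
            Nat.card (MulAction.orbit Q x) := by
          rw [Nat.card_eq_fintype_card, ← Set.toFinset_card]
          congr 1
          ext y
          rw [Finset.mem_filter, Set.mem_toFinset]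
          simp only [Finset.mem_univ, true_and, Quotient.eq'']
          exact MulAction.orbitRel_apply
        obtain ⟨i, hi⟩ := hQ.card_orbit x
        rcases Nat.eq_zero_or_pos i with rfl | hipos
        · exfalso
          rw [pow_zero] at hi
          have hfix : ∀ q : Q, q.1 • x = x := by
            intro q
            have hs : Subsingleton (MulAction.orbit Q x) :=
              (Nat.card_eq_one_iff_unique.1 hi).1
            exact congrArg Subtype.val (hs.elim (⟨q • x, MulAction.mem_orbit x q⟩ :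
              MulAction.orbit Q x) ⟨x, MulAction.mem_orbit_self x⟩)
          have hle : Q ≤ MulAction.stabilizer G x := fun g hg => hfix ⟨g, hg⟩
          exact absurd ((Subgroup.card_le_of_le hle).trans (hX x)) (not_le.2 hcon)
        · rw [hc, hi, ← Nat.cast_smul_eq_nsmul k, Nat.cast_pow, CharP.cast_eq_zero,
            zero_pow hipos.ne', zero_smul]
      · obtain ⟨q, rfl⟩ : y ∈ MulAction.orbit Q x := by
          exact MulAction.orbitRel_apply.1 (Quotient.eq''.1 (Finset.mem_filter.1 hy).2)
        exact hconst q x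
  -- The ideal `bA` is then equal to its augmentation part.
  let M : Submodule k A := LinearMap.range (LinearMap.mulLeft k b)
  let J : Submodule k A := Submodule.span k {y | ∃ q, ∃ x ∈ M, y = (w q - 1) * x}
  have hbw : ∀ (q : Q) (x : A), b * ((w q - 1) * x) = (w q - 1) * (b * x) := fun q x => by
    rw [← mul_assoc, (hb.central _).eq, mul_assoc]
  have hMJ : b ∈ J := by
    have key : ∀ y ∈ I, b * y ∈ J := by
      intro y hy
      induction hy using Submodule.span_induction with
      | mem y hy =>
        obtain ⟨q, x, rfl⟩ := hy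
        exact Submodule.subset_span ⟨q, b * x, ⟨x, rfl⟩, hbw q x⟩
      | zero => simp
      | add y z _ _ iy iz => rw [mul_add]; exact J.add_mem iy iz
      | smul r y _ iy => rw [mul_smul_comm]; exact J.smul_mem r iy
    have := key b hbI
    rwa [hb.idem.eq] at this
  have hMstab : ∀ (q : Q), ∀ x ∈ M, w q * x ∈ M := by
    rintro q _ ⟨x, rfl⟩
    exact ⟨w q * x, by simp only [LinearMap.mulLeft_apply]; rw [← mul_assoc, (hb.central _).eq,
      mul_assoc]⟩
  let ρ : Representation k Q M :=
    { toFun := fun q => (LinearMap.mulLeft k (w q)).restrict (hMstab q)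
      map_one' := LinearMap.ext fun x => Subtype.ext (show w 1 * x.1 = x.1 by rw [w1, one_mul])
      map_mul' := fun q r => LinearMap.ext fun x => Subtype.ext
        (show w (q * r) * x.1 = w q * (w r * x.1) by rw [← mul_assoc]; rw [hhom]) }
  let bM : M := ⟨b, ⟨b, hb.idem.eq⟩⟩
  obtain ⟨φ, hφ⟩ : ∃ φ : Module.Dual k M, φ ≠ 0 :=
    have : Nontrivial M := ⟨⟨bM, 0, fun h => hb.ne_zero (congrArg Subtype.val h)⟩⟩
    exists_ne 0
  obtain ⟨ψ, hψ0, hψ⟩ := exists_fixed_vector (k := k) hQ ρ.dual hφ
  have hψ' : ∀ (q : Q) (x : M), ψ (ρ q x) = ψ x := by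
    intro q x
    have := LinearMap.congr_fun (hψ q⁻¹) x
    simpa [Representation.dual_apply, Module.Dual.transpose] using this
  have hJ : ∀ y ∈ J, ∃ hy : y ∈ M, ψ ⟨y, hy⟩ = 0 := by
    intro y hy
    induction hy using Submodule.span_induction with
    | mem y hy =>
      obtain ⟨q, x, hx, rfl⟩ := hy
      refine ⟨by rw [_root_.sub_mul, one_mul]; exact M.sub_mem (hMstab q x hx) hx, ?_⟩
      have e : (⟨(w q - 1) * x, by rw [_root_.sub_mul, one_mul]; exact M.sub_mem (hMstab q x hx) hx⟩ : M)
          = ρ q ⟨x, hx⟩ - ⟨x, hx⟩ := Subtype.ext (by simp [ρ, _root_.sub_mul]; rfl)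
      rw [e, map_sub, hψ', sub_self]
    | zero => exact ⟨M.zero_mem, map_zero ψ⟩
    | add y z _ _ iy iz =>
      obtain ⟨hy, ey⟩ := iy; obtain ⟨hz, ez⟩ := iz
      exact ⟨M.add_mem hy hz, by
        have := map_add ψ ⟨y, hy⟩ ⟨z, hz⟩; rw [ey, ez, add_zero] at this; exact this⟩
    | smul r y _ iy =>
      obtain ⟨hy, ey⟩ := iy
      exact ⟨M.smul_mem r hy, by
        have := map_smul ψ r ⟨y, hy⟩; rw [ey, smul_zero] at this; exact this⟩
  have hJmul : ∀ y ∈ J, ∀ x, y * x ∈ J := by
    intro y hy x
    induction hy using Submodule.span_induction with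
    | mem y hy =>
      obtain ⟨q, z, ⟨z', rfl⟩, rfl⟩ := hy
      exact Submodule.subset_span ⟨q, b * (z' * x), ⟨z' * x, rfl⟩,
        by simp [LinearMap.mulLeft_apply, mul_assoc]⟩
    | zero => simp
    | add y z _ _ iy iz => rw [add_mul]; exact J.add_mem iy iz
    | smul r y _ iy => rw [smul_mul_assoc]; exact J.smul_mem r iy
  apply hψ0
  refine LinearMap.ext fun x => ?_
  obtain ⟨x, z, rfl⟩ := x
  obtain ⟨hy, e⟩ := hJ (b * z) (hJmul b hMJ z)
  exact e

end Vale.Agent.P180
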