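import Vale.Agent.P180.Reduce
import Vale.Agent.P180.PCore

/-!
Finitely many Morita classes.
-/

namespace Vale.Agent.P180

universe u

open Module

variable {k : Type u} [Field k]

theorem exists_small [IsAlgClosed k] {p : ℕ} [Fact p.Prime] [CharP k p] (d m : ℕ) :
    ∀ (n : ℕ) (G : Type) [Group G] [Finite G] (A : Type u) [Ring A] [Algebra k A]
      (B : TwBasis k G A) (b : A) (hb : IsBlock b), Nat.card G = n → B.Bounded d b →
      VirtPSolvable p m G →
      ∃ (Q : Type) (_ : Group Q) (_ : Finite Q) (C : Type u) (_ : Ring C) (_ : Algebra k C)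
        (_ : TwBasis k Q C) (b' : C) (hb' : IsBlock b'),
        Nat.card Q ≤ m * (d ^ d * d) ∧ IsMoritaEquivalent k hb.idem.Corner hb'.idem.Corner := by
  intro n
  induction n using Nat.strong_induction_on with
  | _ n ih =>
    intro G _ _ A _ _ B b hb hn hd hG
    by_cases hno : ∀ N : Subgroup G, N.Normal → Nat.Coprime p (Nat.card N) → N = ⊥
    · refine ⟨G, inferInstance, inferInstance, A, inferInstance, inferInstance, B, b, hb, ?_,
        IsMoritaEquivalent.refl k _⟩
      exact card_le_of_no_coprime_normal hG hno fun Q hQ hQp => B.card_le_of_bounded hb hd hQp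
    · push Not at hno
      obtain ⟨N, hN, hpN, hne⟩ := hno
      obtain ⟨Q, _, _, C, _, _, BC, b', hb', hd', hG', hlt, hmor⟩ :=
        reduce B hb hd hG N hpN hne
      obtain ⟨Q', iQ, iQf, C', iC, iCa, BC', b'', hb'', hle, hmor'⟩ :=
        ih _ (hn ▸ hlt) Q C BC b' hb' rfl hd' hG'
      exact ⟨Q', iQ, iQf, C', iC, iCa, BC', b'', hb'', hle, hmor.trans k hmor'⟩

/-- Structure constants of a twisted group algebra with root-of-unity cocycle. -/
abbrev Code (k : Type u) [Field k] (F : ℕ) : Type u :=
  Σ n : Fin (F + 1), (Fin n → Fin n → Fin n) ×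
    (Fin n → Fin n → {x : k // x ∈ Polynomial.nthRootsFinset n (1 : k)})

/-- An algebra with the structure constants of a code. -/
structure Realization (k : Type u) [Field k] {F : ℕ} (c : Code k F) where
  A : Type u
  [ring : Ring A]
  [alg : Algebra k A]
  basis : Basis (Fin c.1) k A
  mul : ∀ i j, basis i * basis j = (c.2.2 i j).1 • basis (c.2.1 i j)

attribute [instance] Realization.ring Realization.alg

theorem TwBasis.exists_code [IsAlgClosed k] {F : ℕ} {G : Type} [Group G] [Finite G] {A : Type u}
    [Ring A] [Algebra k A] (B : TwBasis k G A) (hF : Nat.card G ≤ F) :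
    ∃ (c : Code k F) (r : Realization k c), Nonempty (A ≃ₐ[k] r.A) := by
  classical
  have : Fintype G := Fintype.ofFinite G
  set n := Nat.card G with hn
  have hnpos : 0 < n := Nat.card_pos
  let γ : G → k := fun g => ∏ s : G, B.c g s
  have hγ : ∀ g, γ g ≠ 0 := fun g => Finset.prod_ne_zero_iff.2 fun s _ => B.c_ne _ _
  have hrel : ∀ g h : G, B.c g h ^ n * γ (g * h) = γ g * γ h := by
    intro g h
    have h1 : ∏ s : G, (B.c g h * B.c (g * h) s) = ∏ s : G, (B.c h s * B.c g (h * s)) :=
      Finset.prod_congr rfl fun s _ => B.cocycle g h s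
    rw [Finset.prod_mul_distrib, Finset.prod_mul_distrib, Finset.prod_const, Finset.card_univ,
      ← Nat.card_eq_fintype_card] at h1
    rw [hn, h1, mul_comm (γ g)]
    congr 1
    exact Fintype.prod_equiv (Equiv.mulLeft h) _ _ fun s => rfl
  choose β hβ using fun g => IsAlgClosed.exists_pow_nat_eq (γ g)⁻¹ hnpos
  have hβ0 : ∀ g, β g ≠ 0 := by
    intro g h
    have := hβ g
    rw [h, zero_pow hnpos.ne'] at this
    exact inv_ne_zero (hγ g) this.symm
  let c' : G → G → k := fun g h => β g * β h * B.c g h * (β (g * h))⁻¹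
  have hc' : ∀ g h, c' g h ^ n = 1 := by
    intro g h
    simp only [c', mul_pow, inv_pow, hβ, inv_inv]
    rw [mul_assoc, hrel, ← _root_.mul_inv, inv_mul_cancel₀ (mul_ne_zero (hγ g) (hγ h))]
  let e : G ≃ Fin n := Finite.equivFin G
  let v : Basis (Fin n) k A := (B.basis.unitsSMul fun g => Units.mk0 (β g) (hβ0 g)).reindex e
  let c : Code k F := ⟨⟨n, Nat.lt_succ_of_le hF⟩, fun i j => e (e.symm i * e.symm j),
    fun i j => ⟨c' (e.symm i) (e.symm j), (Polynomial.mem_nthRootsFinset hnpos _).2 (hc' _ _)⟩⟩
  suffices hm : ∀ i j, v i * v j = (c.2.2 i j).1 • v (c.2.1 i j) from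
    ⟨c, { A := A, basis := v, mul := hm }, ⟨(AlgEquiv.refl : A ≃ₐ[k] A)⟩⟩
  intro i j
  simp only [v, c, c', Basis.reindex_apply, Basis.unitsSMul_apply, Equiv.symm_apply_apply,
    Units.smul_def, Units.val_mk0, smul_mul_smul_comm, B.mul, smul_smul]
  congr 1
  rw [inv_mul_cancel_right₀ (hβ0 _)]

theorem Realization.iso {F : ℕ} {c : Code k F} (r s : Realization k c) :
    Nonempty (r.A ≃ₐ[k] s.A) := by
  let φ : r.A ≃ₗ[k] s.A := r.basis.equiv s.basis (Equiv.refl _)
  have hb : ∀ i, φ (r.basis i) = s.basis i := fun i => by simp [φ]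
  have hmul : ∀ x y, φ (x * y) = φ x * φ y := by
    have : ∀ i, φ.toLinearMap ∘ₗ LinearMap.mulLeft k (r.basis i) =
        LinearMap.mulLeft k (s.basis i) ∘ₗ φ.toLinearMap := fun i =>
      r.basis.ext fun j => by simp [r.mul, s.mul, hb]
    intro x y
    have h2 : φ.toLinearMap ∘ₗ LinearMap.mulRight k y =
        LinearMap.mulRight k (φ y) ∘ₗ φ.toLinearMap :=
      r.basis.ext fun i => by
        have := LinearMap.congr_fun (this i) y
        simpa [hb] using this
    simpa using LinearMap.congr_fun h2 x
  have hone : φ 1 = 1 := by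
    have h1 := hmul 1 (φ.symm 1)
    rw [one_mul, LinearEquiv.apply_symm_apply, mul_one] at h1
    exact h1.symm
  exact ⟨AlgEquiv.ofLinearEquiv φ hone hmul⟩

/-- Transport of a corner along an algebra isomorphism. -/
def cornerEquiv {A A' : Type u} [Ring A] [Algebra k A] [Ring A'] [Algebra k A'] (φ : A ≃ₐ[k] A')
    {b : A} {b' : A'} (hb : IsIdempotentElem b) (hb' : IsIdempotentElem b') (h : φ b = b') :
    hb.Corner ≃ₐ[k] hb'.Corner where
  toFun x := toCorner hb' (φ x.1) (by rw [← h, ← map_mul, (mem_corner hb x).1])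
    (by rw [← h, ← map_mul, (mem_corner hb x).2])
  invFun x := toCorner hb (φ.symm x.1)
    (by rw [← φ.symm_apply_apply b, h, ← map_mul, (mem_corner hb' x).1])
    (by rw [← φ.symm_apply_apply b, h, ← map_mul, (mem_corner hb' x).2])
  left_inv x := Subtype.ext (φ.symm_apply_apply x.1)
  right_inv x := Subtype.ext (φ.apply_symm_apply x.1)
  map_mul' x y := Subtype.ext (map_mul φ x.1 y.1)
  map_add' x y := Subtype.ext (map_add φ x.1 y.1)
  commutes' r := Subtype.ext (by
    change φ (r • b) = r • b'
    rw [map_smul, h])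

theorem IsBlock.map {A A' : Type u} [Ring A] [Algebra k A] [Ring A'] [Algebra k A']
    (φ : A ≃ₐ[k] A') {b : A} (hb : IsBlock b) : IsBlock (φ b) := by
  refine ⟨fun h => hb.ne_zero ((map_eq_zero_iff _ φ.injective).1 h), hb.idem.map φ, fun x => ?_, ?_⟩
  · rw [← φ.apply_symm_apply x]
    exact (hb.central _).map φ
  · intro c hc hcc hcb
    have h : φ.symm c = 0 ∨ φ.symm c = b := hb.primitive _ (hc.map φ.symm) (fun x => by
        rw [← φ.symm_apply_apply x]; exact (hcc _).map φ.symm) (by
      apply φ.injective; simp [hcb])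
    rcases h with h | h
    · left; rw [← φ.apply_symm_apply c, h, map_zero]
    · right; rw [← φ.apply_symm_apply c, h]

theorem finite_blocks (A : Type u) [Ring A] [Algebra k A] [FiniteDimensional k A] :
    Finite {b : A // IsBlock b} := by
  have horth : ∀ b c : {b : A // IsBlock b}, b ≠ c → b.1 * c.1 = 0 := by
    intro b c hne
    have hid : IsIdempotentElem (b.1 * c.1) :=
      b.2.idem.mul_of_commute (b.2.central c.1) c.2.idem
    have hcen : ∀ x, Commute (b.1 * c.1) x := fun x => (b.2.central x).mul_left (c.2.central x)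
    rcases b.2.primitive _ hid hcen (by
      rw [mul_assoc, (c.2.central b.1).eq, ← mul_assoc, b.2.idem.eq]) with h | h
    · exact h
    rcases c.2.primitive _ hid hcen (by rw [mul_assoc, c.2.idem.eq]) with h' | h'
    · exact h'
    · exact absurd (Subtype.ext (h.symm.trans h')) hne
  have hli : LinearIndependent k fun b : {b : A // IsBlock b} => b.1 := by
    rw [linearIndependent_iff']
    intro s g hg b hb
    have := congrArg (fun z => z * b.1) hg
    simp only [Finset.sum_mul, zero_mul, smul_mul_assoc] at this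
    rw [Finset.sum_eq_single b (fun c _ hne => by rw [horth c b hne, smul_zero])
      (fun h => absurd hb h), b.2.idem.eq] at this
    exact (smul_eq_zero.1 this).resolve_right b.2.ne_zero
  exact hli.finite

/-- The group algebra as a twisted group algebra. -/
noncomputable def monoidTwBasis (k : Type u) [Field k] (G : Type) [Group G] :
    TwBasis k G (MonoidAlgebra k G) where
  basis := MonoidAlgebra.basis G k
  c _ _ := 1
  c_ne _ _ := one_ne_zero
  mul g h := by
    simp [MonoidAlgebra.basis_apply, MonoidAlgebra.single_mul_single]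

theorem bounded_of_isRelTrace {G : Type} [Group G] [Fintype G] (D : Subgroup G)
    [Fintype (G ⧸ D)] {b : MonoidAlgebra k G} (h : IsRelTrace k D b) :
    (monoidTwBasis k G).Bounded (Nat.card D) b := by
  obtain ⟨a, ha, hb⟩ := h
  refine ⟨G ⧸ D, inferInstance, inferInstance,
    fun q => MonoidAlgebra.of k G q.out * a * MonoidAlgebra.of k G q.out⁻¹, ?_, ?_, hb.symm⟩
  · intro g q
    have hbg : (monoidTwBasis k G).basis g = MonoidAlgebra.of k G g := by
      simp [monoidTwBasis, MonoidAlgebra.basis_apply, MonoidAlgebra.of_apply]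
    obtain ⟨t, ht⟩ := QuotientGroup.mk_out_eq_mul D (g * q.out)
    have hgq : g • q = ((g * q.out : G) : G ⧸ D) := by
      conv_lhs => rw [← QuotientGroup.out_eq' q]
      rfl
    rw [hbg, hgq]
    beta_reduce
    rw [ht]
    set o := MonoidAlgebra.of k G
    calc o g * (o q.out * a * o q.out⁻¹)
        = o (g * q.out) * (a * o (t : G)) * o ((t : G)⁻¹ * q.out⁻¹) := by
          simp only [mul_assoc, ← map_mul, ← mul_assoc (o g)]
          simp [mul_assoc]
      _ = o (g * q.out * t) * a * o ((g * q.out * t)⁻¹) * o g := by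
          rw [← ha t]
          simp only [mul_assoc, ← map_mul, ← mul_assoc (o (g * q.out))]
          congr 3
          group
  · intro q
    induction q using QuotientGroup.induction_on with
    | _ g =>
      refine Nat.card_le_card_of_injective
        (fun s : MulAction.stabilizer G (g : G ⧸ D) => (⟨g⁻¹ * s.1 * g, ?_⟩ : D)) ?_
      · have hs : ((s.1 * g : G) : G ⧸ D) = (g : G ⧸ D) := s.2
        have := QuotientGroup.eq.1 hs.symm
        simpa [mul_assoc] using this
      · intro s t h
        exact Subtype.ext (by simpa using congrArg Subtype.val h)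

theorem exists_finite_classes [IsAlgClosed k] {p : ℕ} [Fact p.Prime] [CharP k p] (d m : ℕ) :
    ∃ (N : ℕ) (C : Fin N → Type u) (_ : ∀ i, Ring (C i)) (_ : ∀ i, Algebra k (C i)),
      ∀ (G : Type) [Group G] [Finite G] (A : Type u) [Ring A] [Algebra k A]
        (B : TwBasis k G A) (b : A) (hb : IsBlock b), B.Bounded d b → VirtPSolvable p m G →
        ∃ i, IsMoritaEquivalent k hb.idem.Corner (C i) := by
  classical
  let F := m * (d ^ d * d)
  let rep : ∀ c : {c : Code k F // Nonempty (Realization k c)}, Realization k c.1 :=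
    fun c => c.2.some
  let I := Σ c : {c : Code k F // Nonempty (Realization k c)}, {b : (rep c).A // IsBlock b}
  have : ∀ c : {c : Code k F // Nonempty (Realization k c)},
      Finite {b : (rep c).A // IsBlock b} := fun c =>
    have : FiniteDimensional k (rep c).A := Module.Finite.of_basis (rep c).basis
    finite_blocks (k := k) _
  have : Finite I := inferInstance
  let e := Finite.equivFin I
  refine ⟨Nat.card I, fun i => (e.symm i).2.2.idem.Corner, fun _ => inferInstance,
    fun _ => inferInstance, ?_⟩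
  intro G _ _ A _ _ B b hb hd hG
  obtain ⟨Q, _, _, C, _, _, BC, b', hb', hle, hmor⟩ := exists_small d m _ G A B b hb rfl hd hG
  obtain ⟨c, r, ⟨φ⟩⟩ := BC.exists_code hle
  let c₀ : {c : Code k F // Nonempty (Realization k c)} := ⟨c, ⟨r⟩⟩
  obtain ⟨ψ⟩ := r.iso (rep c₀)
  let x : I := ⟨c₀, ⟨(φ.trans ψ) b', hb'.map _⟩⟩
  refine ⟨e x, hmor.trans k ?_⟩
  beta_reduce
  have hy := e.symm_apply_apply x
  revert hy
  generalize e.symm (e x) = y
  rintro rfl
  exact IsMoritaEquivalent.of_algEquiv k (cornerEquiv (φ.trans ψ) hb'.idem _ rfl)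

end Vale.Agent.P180
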