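import Vale.Agent.P180.Defs

/-!
Groups with a p-solvable normal subgroup of bounded index: closure properties, and the bound on
the order when there is no nontrivial normal p'-subgroup.
-/

namespace Vale.Agent.P180

/-- Every nontrivial subgroup of `R` has a proper normal subgroup whose index is a power of `p`
or prime to `p`. -/
def SubPSolvable (p : ℕ) {G : Type} [Group G] (R : Subgroup G) : Prop :=
  ∀ K : Subgroup G, K ≤ R → K ≠ ⊥ → ∃ M : Subgroup K, M.Normal ∧ M ≠ ⊤ ∧
    ((∃ j, M.index = p ^ j) ∨ Nat.Coprime p M.index)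

/-- The class of groups in the result: a p-solvable normal subgroup of index at most `m`. -/
def VirtPSolvable (p m : ℕ) (G : Type) [Group G] : Prop :=
  ∃ R : Subgroup G, R.Normal ∧ R.index ≤ m ∧ SubPSolvable p R

variable {p : ℕ} {G : Type} [Group G]

theorem IsPSolvable.subPSolvable [hp : Fact p.Prime] {R : Subgroup G}
    (h : IsPSolvable p R) : SubPSolvable p R := by
  classical
  obtain ⟨n, f, h0, hn, hf⟩ := h
  intro K hK hne
  let ι : K →* R := Subgroup.inclusion hK
  have hex : ∃ i, (f i).comap ι = ⊤ := ⟨n, by rw [hn, Subgroup.comap_top]⟩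
  have hpos : Nat.find hex ≠ 0 := by
    intro h
    have h2 := Nat.find_spec hex
    rw [h, h0] at h2
    apply hne
    rw [eq_bot_iff]
    intro x hx
    have : (⟨x, hx⟩ : K) ∈ Subgroup.comap ι ⊥ := by rw [h2]; trivial
    have := congrArg Subtype.val (Subgroup.mem_bot.1 (Subgroup.mem_comap.1 this))
    simpa [ι] using this
  obtain ⟨i, hi⟩ := Nat.exists_eq_succ_of_ne_zero hpos
  have htop : (f (i + 1)).comap ι = ⊤ := by
    have := Nat.find_spec hex; rwa [hi] at this
  have hin : i < n := by
    have : Nat.find hex ≤ n := Nat.find_min' hex (by rw [hn, Subgroup.comap_top])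
    omega
  obtain ⟨-, hnorm, hfac⟩ := hf i hin
  refine ⟨(f i).comap ι, hnorm.comap ι, Nat.find_min hex (by omega), ?_⟩
  have hdvd : ((f i).comap ι).index ∣ (f i).relIndex (f (i + 1)) := by
    rw [Subgroup.index_comap]
    have hle : ι.range ≤ f (i + 1) := by
      rintro _ ⟨x, rfl⟩
      have : x ∈ (f (i + 1)).comap ι := by rw [htop]; trivial
      exact this
    rw [← Subgroup.relIndex_subgroupOf hle]
    exact Subgroup.relIndex_dvd_index_of_normal _ _
  rcases hfac with ⟨j, hj⟩ | hc
  · rw [hj] at hdvd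
    obtain ⟨l, -, hl⟩ := (Nat.dvd_prime_pow hp.out).1 hdvd
    exact Or.inl ⟨l, hl⟩
  · exact Or.inr (hc.coprime_dvd_right hdvd)

theorem SubPSolvable.comap {H : Type} [Group H] {R : Subgroup G} (h : SubPSolvable p R)
    (φ : H →* G) (hφ : Function.Injective φ) : SubPSolvable p (R.comap φ) := by
  intro K hK hne
  have hKne : K.map φ ≠ ⊥ := fun e => hne ((Subgroup.map_eq_bot_iff_of_injective _ hφ).1 e)
  obtain ⟨M, hMn, hMt, hM⟩ := h (K.map φ) (Subgroup.map_le_iff_le_comap.2 hK) hKne
  let e := K.equivMapOfInjective φ hφ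
  refine ⟨M.comap e.toMonoidHom, hMn.comap _, ?_, ?_⟩
  · intro ht
    apply hMt
    rw [eq_top_iff]
    intro x _
    have : e.symm x ∈ M.comap e.toMonoidHom := by rw [ht]; trivial
    simpa using this
  · rwa [Subgroup.index_comap_of_surjective M e.surjective]

theorem SubPSolvable.map [hp : Fact p.Prime] [Finite G] {H : Type} [Group H] {R : Subgroup G}
    (h : SubPSolvable p R) (φ : G →* H) : SubPSolvable p (R.map φ) := by
  intro K hK hne
  have hex : ∃ K₀ : Subgroup G, K₀ ≤ R ∧ K₀.map φ = K :=
    ⟨R ⊓ K.comap φ, inf_le_left, by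
      apply le_antisymm
      · exact (Subgroup.map_mono inf_le_right).trans (Subgroup.map_comap_le φ K)
      · intro y hy
        obtain ⟨x, hx, rfl⟩ := hK hy
        exact ⟨x, ⟨hx, hy⟩, rfl⟩⟩
  obtain ⟨K₀, hK₀⟩ := exists_minimal_of_wellFoundedLT _ hex
  obtain ⟨⟨hK₀R, hK₀map⟩, hmin⟩ := hK₀
  have hK₀ne : K₀ ≠ ⊥ := fun e => hne (by rw [← hK₀map, e, Subgroup.map_bot])
  obtain ⟨M, hMn, hMt, hM⟩ := h K₀ hK₀R hK₀ne
  let ψ : K₀ →* K := (φ.comp K₀.subtype).codRestrict K fun x => by
    rw [← hK₀map]; exact ⟨x, x.2, rfl⟩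
  have hψ : Function.Surjective ψ := by
    rintro ⟨y, hy⟩
    rw [← hK₀map] at hy
    obtain ⟨x, hx, rfl⟩ := hy
    exact ⟨⟨x, hx⟩, rfl⟩
  refine ⟨M.map ψ, hMn.map ψ hψ, ?_, ?_⟩
  · intro ht
    apply hMt
    have h1 : (M.map K₀.subtype).map φ = K := by
      apply le_antisymm
      · rw [← hK₀map]; exact Subgroup.map_mono (Subgroup.map_subtype_le M)
      · intro y hy
        have : (⟨y, hy⟩ : K) ∈ M.map ψ := by rw [ht]; trivial
        obtain ⟨x, hx, he⟩ := this
        exact ⟨x, ⟨x, hx, rfl⟩, congrArg Subtype.val he⟩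
    have := hmin ⟨(Subgroup.map_subtype_le M).trans hK₀R, h1⟩ (Subgroup.map_subtype_le M)
    rw [eq_top_iff]
    intro x _
    obtain ⟨y, hy, he⟩ := this x.2
    rwa [Subtype.ext he] at hy
  · have hd := M.index_map_dvd hψ
    rcases hM with ⟨j, hj⟩ | hc
    · rw [hj] at hd
      obtain ⟨l, -, hl⟩ := (Nat.dvd_prime_pow hp.out).1 hd
      exact Or.inl ⟨l, hl⟩
    · exact Or.inr (hc.coprime_dvd_right hd)

theorem VirtPSolvable.subgroup {m : ℕ} [Finite G] (h : VirtPSolvable p m G) (T : Subgroup G) :
    VirtPSolvable p m T := by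
  obtain ⟨R, hR, hi, hs⟩ := h
  refine ⟨R.comap T.subtype, hR.comap _, ?_, hs.comap _ Subtype.val_injective⟩
  rw [Subgroup.index_comap, Subgroup.range_subtype]
  exact le_trans (Nat.le_of_dvd (Nat.pos_of_ne_zero Subgroup.index_ne_zero_of_finite)
    (Subgroup.relIndex_dvd_index_of_normal R T)) hi

theorem VirtPSolvable.quotient [Fact p.Prime] {m : ℕ} [Finite G] (h : VirtPSolvable p m G)
    (N : Subgroup G) [N.Normal] : VirtPSolvable p m (G ⧸ N) := by
  obtain ⟨R, hR, hi, hs⟩ := h
  have hsurj := QuotientGroup.mk'_surjective N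
  refine ⟨R.map (QuotientGroup.mk' N), hR.map _ hsurj, ?_, hs.map _⟩
  exact le_trans (Nat.le_of_dvd (Nat.pos_of_ne_zero Subgroup.index_ne_zero_of_finite)
    (R.index_map_dvd hsurj)) hi

/-- The elements of order prime to `p`, as generators. -/
def genPrime (p : ℕ) (K : Type) [Group K] : Subgroup K :=
  Subgroup.closure {x : K | Nat.Coprime p (orderOf x)}

/-- The elements of p-power order, as generators. -/
def genPow (p : ℕ) (K : Type) [Group K] : Subgroup K :=
  Subgroup.closure {x : K | ∃ j, orderOf x = p ^ j}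

instance genPrime_char (p : ℕ) (K : Type) [Group K] : (genPrime p K).Characteristic := by
  rw [Subgroup.characteristic_iff_map_le]
  intro φ
  rw [genPrime, MonoidHom.map_closure, Subgroup.closure_le]
  rintro _ ⟨x, hx, rfl⟩
  exact Subgroup.subset_closure (by simpa [MulEquiv.orderOf_eq] using hx)

instance genPow_char (p : ℕ) (K : Type) [Group K] : (genPow p K).Characteristic := by
  rw [Subgroup.characteristic_iff_map_le]
  intro φ
  rw [genPow, MonoidHom.map_closure, Subgroup.closure_le]
  rintro _ ⟨x, hx, rfl⟩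
  exact Subgroup.subset_closure (by simpa [MulEquiv.orderOf_eq] using hx)

theorem card_le_of_no_coprime_normal [hp : Fact p.Prime] [Finite G] {m d : ℕ}
    (h : VirtPSolvable p m G)
    (hno : ∀ N : Subgroup G, N.Normal → Nat.Coprime p (Nat.card N) → N = ⊥)
    (hd : ∀ Q : Subgroup G, Q.Normal → IsPGroup p Q → Nat.card Q ≤ d) :
    Nat.card G ≤ m * (d ^ d * d) := by
  classical
  obtain ⟨R, hR, hi, hs⟩ := h
  obtain ⟨Q, hQ⟩ := exists_maximal_of_wellFoundedGT
    (fun Q : Subgroup G => Q.Normal ∧ IsPGroup p Q)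
    ⟨⊥, inferInstance, IsPGroup.of_bot⟩
  obtain ⟨⟨hQn, hQp⟩, hQmax⟩ := hQ
  have habsorb : ∀ P : Subgroup G, P.Normal → IsPGroup p P → P ≤ Q := by
    intro P hP hPp
    have := hQmax ⟨Subgroup.sup_normal P Q, hPp.to_sup_of_normal_right hQp⟩ le_sup_right
    exact le_sup_left.trans this
  let C : Subgroup G := R ⊓ Subgroup.centralizer (Q : Set G)
  have hCn : C.Normal := by
    exact Subgroup.normal_inf_normal _ _
  have hCQ : C ≤ Q := by
    by_contra hcon
    obtain ⟨K, hKmin⟩ := exists_minimal_of_wellFoundedLT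
      (fun K : Subgroup G => K.Normal ∧ K ≤ C ∧ ¬ K ≤ Q) ⟨C, hCn, le_rfl, hcon⟩
    obtain ⟨⟨hKn, hKC, hKQ⟩, hmin⟩ := hKmin
    have hKR : K ≤ R := hKC.trans inf_le_left
    have hKne : K ≠ ⊥ := fun e => hKQ (e ▸ bot_le)
    obtain ⟨M, hMn, hMt, hM⟩ := hs K hKR hKne
    have small : ∀ L : Subgroup K, L.Characteristic → L ≤ M → L.map K.subtype ≤ Q := by
      intro L hL hLM
      by_contra hLQ
      have hLn : (L.map K.subtype).Normal := ConjAct.normal_of_characteristic_of_normal
      have := hmin ⟨hLn, (Subgroup.map_subtype_le L).trans hKC, hLQ⟩ (Subgroup.map_subtype_le L)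
      apply hMt
      rw [eq_top_iff]
      intro x _
      obtain ⟨y, hy, he⟩ := this x.2
      exact hLM (by rwa [Subtype.ext he] at hy)
    have hpM : ∀ x : K, Nat.Coprime (orderOf x) M.index → x ∈ M := by
      intro x hx
      have h1 : orderOf (x : K ⧸ M) ∣ orderOf x := orderOf_map_dvd (QuotientGroup.mk' M) x
      have h2 : orderOf (x : K ⧸ M) ∣ M.index := orderOf_dvd_natCard _
      have := Nat.eq_one_of_dvd_coprimes hx h1 h2
      exact (QuotientGroup.eq_one_iff x).1 (orderOf_eq_one_iff.1 this)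
    rcases hM with ⟨j, hj⟩ | hc
    · have hle : genPrime p K ≤ M := (Subgroup.closure_le _).2 fun x hx => hpM x (by
        rw [hj]; exact Nat.Coprime.pow_right _ (Nat.Coprime.symm hx))
      have hQ' := small _ inferInstance hle
      apply hKQ
      apply habsorb K hKn
      intro x
      obtain ⟨e, r, hr, her⟩ := Nat.exists_eq_pow_mul_and_not_dvd (orderOf_pos x).ne' p hp.out.ne_one
      have hy : orderOf (x ^ p ^ e) = r := by
        rw [orderOf_pow_of_dvd (pow_ne_zero _ hp.out.ne_zero) (her ▸ dvd_mul_right _ _), her,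
          Nat.mul_div_cancel_left _ (pow_pos hp.out.pos _)]
      have hmem : x ^ p ^ e ∈ genPrime p K := Subgroup.subset_closure
        (show Nat.Coprime p (orderOf (x ^ p ^ e)) by
          rw [hy]; exact (Nat.Prime.coprime_iff_not_dvd hp.out).2 hr)
      have hxQ : ((x ^ p ^ e : K) : G) ∈ Q := hQ' ⟨_, hmem, rfl⟩
      obtain ⟨i, hi⟩ := hQp ⟨_, hxQ⟩
      refine ⟨e + i, Subtype.ext ?_⟩
      have := congrArg Subtype.val hi
      simp only [SubmonoidClass.coe_pow, OneMemClass.coe_one] at this ⊢
      rw [pow_add, pow_mul]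
      exact this
    · have hle : genPow p K ≤ M := (Subgroup.closure_le _).2 fun x hx => hpM x (by
        obtain ⟨i, hi⟩ := hx; rw [hi]; exact hc.pow_left i)
      have hQ' := small _ inferInstance hle
      let L := genPow p K
      have hLp : IsPGroup p L := by
        intro x
        obtain ⟨i, hi⟩ := hQp ⟨_, hQ' ⟨_, x.2, rfl⟩⟩
        refine ⟨i, Subtype.ext (Subtype.ext ?_)⟩
        simpa using congrArg Subtype.val hi
      obtain ⟨P⟩ : Nonempty (Sylow p K) := inferInstance
      have hPL : (P : Subgroup K) ≤ L := fun x hx => Subgroup.subset_closure (by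
        obtain ⟨i, hi⟩ := P.2 ⟨x, hx⟩
        have hd' : orderOf x ∣ p ^ i := orderOf_dvd_of_pow_eq_one (by
          simpa using congrArg Subtype.val hi)
        obtain ⟨l, -, hl⟩ := (Nat.dvd_prime_pow hp.out).1 hd'
        exact ⟨l, hl⟩)
      have hLeq : L = (P : Subgroup K) := P.3 hLp hPL
      have hcop : (Nat.card L).Coprime L.index := by
        rw [hLeq]; exact P.card_coprime_index
      obtain ⟨H, hH⟩ := Subgroup.exists_right_complement'_of_coprime hcop
      have hcopH : Nat.Coprime p (Nat.card H) := by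
        have hidx : L.index = Nat.card H := hH.symm.index_eq_card
        rw [← hidx, hLeq]
        exact (Nat.Prime.coprime_iff_not_dvd hp.out).2 P.not_dvd_index
      have hcent : ∀ l ∈ L, ∀ x : K, Commute x l := by
        intro l hl x
        have hxC := (hKC x.2).2
        exact Subtype.ext (Subgroup.mem_centralizer_iff.1 hxC (l : G) (hQ' ⟨l, hl, rfl⟩)).symm
      have hHeq : genPrime p K = H := by
        apply le_antisymm
        · rw [genPrime, Subgroup.closure_le]
          intro x hx
          obtain ⟨⟨⟨l, hl⟩, ⟨z, hz⟩⟩, rfl⟩ := hH.2 x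
          simp only at hx ⊢
          have hcomm : Commute l z := (hcent l hl z).symm
          obtain ⟨i, hi⟩ := hLp ⟨l, hl⟩
          have hl1 : l ^ p ^ i = 1 := by simpa using congrArg Subtype.val hi
          have h2 : z ^ (orderOf (l * z)) = (l ^ orderOf (l * z))⁻¹ := by
            have := pow_orderOf_eq_one (l * z)
            rw [hcomm.mul_pow] at this
            exact eq_inv_of_mul_eq_one_right this
          have hdis := hH.disjoint.le_bot
            (show z ^ orderOf (l * z) ∈ L ⊓ H from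
              ⟨h2 ▸ L.inv_mem (L.pow_mem hl _), H.pow_mem hz _⟩)
          rw [Subgroup.mem_bot] at hdis
          rw [hdis] at h2
          have h3 : orderOf l ∣ orderOf (l * z) :=
            orderOf_dvd_of_pow_eq_one (inv_eq_one.1 h2.symm)
          have h4 : orderOf l ∣ p ^ i := orderOf_dvd_of_pow_eq_one hl1
          have := Nat.eq_one_of_dvd_coprimes (Nat.Coprime.pow_right i (Nat.Coprime.symm hx)) h3 h4
          rw [orderOf_eq_one_iff.1 this, one_mul]
          exact hz
        · intro x hx
          exact Subgroup.subset_closure (show Nat.Coprime p (orderOf x) from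
            hcopH.coprime_dvd_right (Subgroup.orderOf_dvd_natCard H hx))
      have hHn : ((genPrime p K).map K.subtype).Normal :=
        ConjAct.normal_of_characteristic_of_normal
      have hbot := hno _ hHn (by
        rw [Subgroup.card_map_of_injective K.subtype_injective, hHeq]
        exact hcopH)
      rw [Subgroup.map_eq_bot_iff_of_injective _ K.subtype_injective, hHeq] at hbot
      apply hKQ
      intro x hx
      obtain ⟨⟨⟨l, hl⟩, ⟨z, hz⟩⟩, he⟩ := hH.2 ⟨x, hx⟩
      simp only at he
      rw [hbot, SetLike.mem_coe, Subgroup.mem_bot] at hz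
      rw [hz, mul_one] at he
      exact hQ' ⟨l, hl, congrArg Subtype.val he⟩
  have hcardR : Nat.card R ≤ d ^ d * d := by
    let Φ : R → (Q → Q) := fun r q => ⟨r * q * r⁻¹, hQn.conj_mem q q.2 r⟩
    have : Fintype R := Fintype.ofFinite R
    have : Fintype Q := Fintype.ofFinite Q
    have hfib : ∀ f ∈ Finset.univ.image Φ,
        (Finset.univ.filter fun r : R => Φ r = f).card ≤ Nat.card C := by
      intro f hf
      obtain ⟨r₀, -, rfl⟩ := Finset.mem_image.1 hf
      rw [← Fintype.card_coe, ← Nat.card_eq_fintype_card]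
      refine Nat.card_le_card_of_injective
        (fun r : {r // r ∈ Finset.univ.filter fun r : R => Φ r = Φ r₀} =>
          (⟨(r₀ : G)⁻¹ * (r.1 : G), R.mul_mem (R.inv_mem r₀.2) r.1.2,
            Subgroup.mem_centralizer_iff.2 fun q hq => ?_⟩ : C)) ?_
      · have e : (r.1 : G) * q * (r.1 : G)⁻¹ = r₀ * q * (r₀ : G)⁻¹ :=
          congrArg Subtype.val (congrFun (Finset.mem_filter.1 r.2).2 ⟨q, hq⟩)
        have e' := congrArg (fun y => (r₀ : G)⁻¹ * y * r.1) e
        simp only [mul_assoc, inv_mul_cancel, mul_one, inv_mul_cancel_left] at e' ⊢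
        exact e'.symm
      · intro a b hab
        exact Subtype.ext (Subtype.ext (mul_left_cancel (congrArg Subtype.val hab)))
    calc Nat.card R = (Finset.univ : Finset R).card := by
          rw [Nat.card_eq_fintype_card, Finset.card_univ]
      _ ≤ Nat.card C * (Finset.univ.image Φ).card :=
          Finset.card_le_mul_card_image _ _ hfib
      _ ≤ d * d ^ d := by
          refine Nat.mul_le_mul ((Subgroup.card_le_of_le hCQ).trans (hd Q hQn hQp)) ?_
          refine (Finset.card_le_univ _).trans ?_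
          rw [Fintype.card_fun, ← Nat.card_eq_fintype_card]
          have hQd := hd Q hQn hQp
          exact le_trans (Nat.pow_le_pow_left hQd _)
            (Nat.pow_le_pow_right (lt_of_lt_of_le Nat.card_pos hQd) hQd)
      _ = d ^ d * d := mul_comm _ _
  rw [← R.index_mul_card]
  exact Nat.mul_le_mul hi hcardR

end Vale.Agent.P180
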