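import Vale.Agent.P180.Defs

/-!
A corner with a system of matrix units is a matrix algebra over the small corner, and is
Morita equivalent to it.
-/

namespace Vale.Agent.P180

universe u

variable {k : Type u} [Field k] {A : Type u} [Ring A] [Algebra k A]

theorem mem_corner {b : A} (hb : IsIdempotentElem b) (x : hb.Corner) :
    b * x.1 = x.1 ∧ x.1 * b = x.1 :=
  (Subsemigroup.mem_corner_iff hb).1 x.2

/-- Build an element of a corner. -/
def toCorner {b : A} (hb : IsIdempotentElem b) (x : A) (h₁ : b * x = x) (h₂ : x * b = x) :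
    hb.Corner :=
  ⟨x, (Subsemigroup.mem_corner_iff hb).2 ⟨h₁, h₂⟩⟩

/-- Evaluation of a corner as an additive map. -/
def cornerVal {b : A} (hb : IsIdempotentElem b) : hb.Corner →+ A where
  toFun x := x.1
  map_zero' := rfl
  map_add' _ _ := rfl

theorem corner_sum_val {b : A} (hb : IsIdempotentElem b) {ι : Type*} (s : Finset ι)
    (x : ι → hb.Corner) : (∑ i ∈ s, x i).1 = ∑ i ∈ s, (x i).1 :=
  map_sum (cornerVal hb) x s

/-- A system of matrix units whose diagonal covers a central idempotent `b`. -/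
structure Units' (b : A) (I : Type) [Fintype I] [DecidableEq I] where
  E : I → I → A
  mul : ∀ i j l, E i j * E j l = E i l
  orth : ∀ i j j' l, j ≠ j' → E i j * E j' l = 0
  sum : b * ∑ i, E i i = b

variable {b : A} {I : Type} [Fintype I] [DecidableEq I]

theorem Units'.idem (U : Units' b I) (hb : IsIdempotentElem b) (hc : ∀ x, Commute b x) (i : I) :
    IsIdempotentElem (b * U.E i i) := by
  change _ * _ = _
  rw [mul_assoc, ← mul_assoc (U.E i i), ← (hc (U.E i i)).eq, ← mul_assoc, ← mul_assoc, hb.eq,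
    mul_assoc, U.mul]

theorem Units'.sum_apply (U : Units' b I) (hb : IsIdempotentElem b) (hc : ∀ x, Commute b x)
    (x : hb.Corner) : (∑ i, U.E i i) * x.1 = x.1 ∧ x.1 * (∑ i, U.E i i) = x.1 := by
  obtain ⟨h1, h2⟩ := mem_corner hb x
  constructor
  · conv_lhs => rw [← h1, ← mul_assoc, ← (hc _).eq, U.sum, h1]
  · conv_lhs => rw [← h2, mul_assoc, U.sum, h2]

theorem Units'.center_eq (U : Units' b I) (hb : IsIdempotentElem b) (hc : ∀ x, Commute b x)
    (i₀ : I) (c : hb.Corner) (hcomm : ∀ x : hb.Corner, Commute c x) :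
    c.1 = ∑ i, U.E i i₀ * (U.E i₀ i₀ * c.1 * U.E i₀ i₀) * U.E i₀ i := by
  obtain ⟨h1, h2⟩ := mem_corner hb c
  have hce : ∀ i j, c.1 * U.E i j = U.E i j * c.1 := by
    intro i j
    have := congrArg Subtype.val (hcomm (toCorner hb (b * U.E i j)
      (by rw [← mul_assoc, hb.eq]) (by rw [mul_assoc, ← (hc _).eq, ← mul_assoc, hb.eq]))).eq
    change c.1 * (b * U.E i j) = b * U.E i j * c.1 at this
    rwa [← mul_assoc, h2, (hc (U.E i j)).eq, mul_assoc, h1] at this
  calc c.1 = (∑ i, U.E i i) * c.1 := (U.sum_apply hb hc c).1.symm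
    _ = ∑ i, U.E i i * c.1 := Finset.sum_mul ..
    _ = _ := by
      refine Finset.sum_congr rfl fun i _ => ?_
      rw [mul_assoc (U.E i₀ i₀), hce i₀ i₀, ← mul_assoc (U.E i₀ i₀) (U.E i₀ i₀), U.mul,
        mul_assoc (U.E i i₀), mul_assoc (U.E i₀ i₀), hce i₀ i, ← mul_assoc (U.E i₀ i₀), U.mul,
        ← mul_assoc, U.mul]

/-- The isomorphism of `bA` with matrices over the small corner. -/
noncomputable def Units'.equiv (U : Units' b I) (hb : IsIdempotentElem b)
    (hc : ∀ x, Commute b x) (i₀ : I) :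
    hb.Corner ≃ₐ[k] Matrix I I (U.idem hb hc i₀).Corner where
  toFun x := fun i j => toCorner (U.idem hb hc i₀) (U.E i₀ i * x.1 * U.E j i₀)
    (by
      rw [mul_assoc b, ← mul_assoc (U.E i₀ i₀), ← mul_assoc (U.E i₀ i₀), U.mul,
        ← mul_assoc b, ← mul_assoc b, (hc (U.E i₀ i)).eq, mul_assoc _ b, (mem_corner hb x).1])
    (by
      rw [(hc (U.E i₀ i₀)).eq, ← mul_assoc, mul_assoc _ (U.E j i₀), U.mul,
        mul_assoc (U.E i₀ i * x.1), ← (hc (U.E j i₀)).eq, mul_assoc (U.E i₀ i), ← mul_assoc x.1,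
        (mem_corner hb x).2, ← mul_assoc])
  invFun M := toCorner hb (∑ i, ∑ j, U.E i i₀ * (M i j).1 * U.E i₀ j)
    (by
      simp only [Finset.mul_sum]
      refine Finset.sum_congr rfl fun i _ => Finset.sum_congr rfl fun j _ => ?_
      rw [← mul_assoc, ← mul_assoc, (hc (U.E i i₀)).eq, mul_assoc _ b]
      congr 2
      rw [← (mem_corner _ (M i j)).1, ← mul_assoc, ← mul_assoc b, hb.eq])
    (by
      simp only [Finset.sum_mul]
      refine Finset.sum_congr rfl fun i _ => Finset.sum_congr rfl fun j _ => ?_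
      rw [mul_assoc, ← (hc (U.E i₀ j)).eq, ← mul_assoc]
      congr 1
      rw [mul_assoc]
      congr 1
      rw [← (mem_corner _ (M i j)).2, mul_assoc (M i j).1, mul_assoc b, ← (hc (U.E i₀ i₀)).eq,
        ← mul_assoc b, hb.eq])
  left_inv x := Subtype.ext (by
    change ∑ i, ∑ j, U.E i i₀ * (U.E i₀ i * x.1 * U.E j i₀) * U.E i₀ j = x.1
    calc _ = ∑ i, ∑ j, U.E i i * x.1 * U.E j j := by
          refine Finset.sum_congr rfl fun i _ => Finset.sum_congr rfl fun j _ => ?_
          rw [← mul_assoc, ← mul_assoc, U.mul, mul_assoc _ (U.E j i₀), U.mul]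
      _ = (∑ i, U.E i i) * x.1 * ∑ j, U.E j j := by
          simp only [Finset.sum_mul, Finset.mul_sum]
          exact Finset.sum_comm
      _ = x.1 := by rw [(U.sum_apply hb hc x).1, (U.sum_apply hb hc x).2])
  right_inv M := by
    ext i j
    apply Subtype.ext
    change U.E i₀ i * (∑ a, ∑ c, U.E a i₀ * (M a c).1 * U.E i₀ c) * U.E j i₀ = (M i j).1
    simp only [Finset.mul_sum, Finset.sum_mul]
    rw [Finset.sum_eq_single i, Finset.sum_eq_single j]
    · rw [← mul_assoc, ← mul_assoc, U.mul, mul_assoc _ (U.E i₀ j), U.mul]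
      obtain ⟨h1, h2⟩ := mem_corner _ (M i j)
      conv_lhs => rw [← h1, ← mul_assoc, ← mul_assoc, ← (hc (U.E i₀ i₀)).eq, mul_assoc b,
        U.mul, h1]
      conv_lhs => rw [← h2, mul_assoc, mul_assoc b, U.mul, h2]
    · intro c _ hne
      rw [← mul_assoc, mul_assoc _ (U.E i₀ c), U.orth _ _ _ _ hne, mul_zero]
    · simp
    · intro a _ hne
      refine Finset.sum_eq_zero fun c _ => ?_
      rw [← mul_assoc, ← mul_assoc, U.orth _ _ _ _ (Ne.symm hne), zero_mul, zero_mul, zero_mul]
    · simp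
  map_mul' x y := by
    ext i j
    apply Subtype.ext
    refine Eq.trans ?_ (congrArg Subtype.val (Matrix.mul_apply (α := (U.idem hb hc i₀).Corner))).symm
    refine Eq.trans ?_ (map_sum (cornerVal (U.idem hb hc i₀)) _ _).symm
    change U.E i₀ i * (x.1 * y.1) * U.E j i₀ =
      ∑ l, (U.E i₀ i * x.1 * U.E l i₀) * (U.E i₀ l * y.1 * U.E j i₀)
    calc U.E i₀ i * (x.1 * y.1) * U.E j i₀
        = U.E i₀ i * (x.1 * (∑ l, U.E l l) * y.1) * U.E j i₀ := by
          rw [(U.sum_apply hb hc x).2]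
      _ = ∑ l, U.E i₀ i * (x.1 * U.E l l * y.1) * U.E j i₀ := by
          simp only [Finset.sum_mul, Finset.mul_sum]
      _ = _ := by
          refine Finset.sum_congr rfl fun l _ => ?_
          rw [← U.mul l i₀ l]
          simp only [mul_assoc]
  map_add' x y := by
    ext i j
    apply Subtype.ext
    change U.E i₀ i * (x.1 + y.1) * U.E j i₀ = U.E i₀ i * x.1 * U.E j i₀ + U.E i₀ i * y.1 * U.E j i₀
    rw [mul_add, add_mul]
  commutes' r := by
    ext i j
    apply Subtype.ext
    rw [Matrix.algebraMap_matrix_apply]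
    change U.E i₀ i * (r • b) * U.E j i₀ = _
    rw [mul_smul_comm, smul_mul_assoc, ← (hc (U.E i₀ i)).eq, mul_assoc]
    split
    · next h => subst h; rw [U.mul]; rfl
    · next h => rw [U.orth _ _ _ _ h, mul_zero, smul_zero]; rfl

theorem Units'.morita (U : Units' b I) (hb : IsIdempotentElem b) (hc : ∀ x, Commute b x)
    (i₀ : I) : IsMoritaEquivalent k hb.Corner (U.idem hb hc i₀).Corner :=
  have : Nonempty I := ⟨i₀⟩
  (IsMoritaEquivalent.of_algEquiv k (U.equiv hb hc i₀)).trans k
    (IsMoritaEquivalent.matrix (U.idem hb hc i₀).Corner k).symm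

end Vale.Agent.P180
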