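import Vale.Agent.P180.Twisted

/-!
Maschke's theorem for twisted group algebras, and the split Wedderburn decomposition.
-/

namespace Vale.Agent.P180

universe u

open Module

variable {k : Type u} [Field k] {G : Type} [Group G] {A : Type u} [Ring A] [Algebra k A]

theorem TwBasis.isSemisimpleRing [Finite G] (B : TwBasis k G A) (hG : (Nat.card G : k) ≠ 0) :
    IsSemisimpleRing A := by
  classical
  have : Fintype G := Fintype.ofFinite G
  refine { exists_isCompl := fun W => ?_ }
  let Wk : Submodule k A := W.restrictScalars k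
  obtain ⟨π, hπ⟩ := Wk.subtype.exists_leftInverse_of_injective (Submodule.ker_subtype _)
  let π' : A →ₗ[k] A := Wk.subtype ∘ₗ π
  have hπ'mem : ∀ x, π' x ∈ W := fun x => (π x).2
  have hπ'id : ∀ x ∈ W, π' x = x := fun x hx =>
    congrArg Subtype.val (LinearMap.congr_fun hπ ⟨x, hx⟩)
  let avg : A →ₗ[k] A := (Nat.card G : k)⁻¹ • ∑ g : G,
    LinearMap.mulLeft k (B.inv g) ∘ₗ π' ∘ₗ LinearMap.mulLeft k (B.basis g)
  have havg : ∀ x, avg x = (Nat.card G : k)⁻¹ • ∑ g : G, B.inv g * π' (B.basis g * x) := by
    intro x; simp [avg]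
  have hinv : ∀ g h : G, B.c g h • B.inv g = B.basis h * B.inv (g * h) := by
    intro g h
    have e : B.inv g * (B.basis g * B.basis h) * B.inv (g * h) = B.basis h * B.inv (g * h) := by
      rw [← mul_assoc (B.inv g), B.inv_mul, one_mul]
    rw [← e, B.mul, mul_smul_comm, smul_mul_assoc, mul_assoc, B.mul_inv, mul_one]
  have hlin : ∀ h x, avg (B.basis h * x) = B.basis h * avg x := by
    intro h x
    rw [havg, havg, mul_smul_comm, Finset.mul_sum]
    congr 1
    refine Fintype.sum_equiv (Equiv.mulRight h) _ _ fun g => ?_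
    rw [← mul_assoc, B.mul, smul_mul_assoc, map_smul, mul_smul_comm, ← smul_mul_assoc, hinv,
      mul_assoc]
    rfl
  have hlin' : ∀ a x, avg (a * x) = a * avg x := by
    intro a x
    have : avg ∘ₗ LinearMap.mulRight k x = LinearMap.mulRight k (avg x) := by
      refine B.basis.ext fun h => ?_
      simpa using hlin h x
    simpa using LinearMap.congr_fun this a
  let φ : A →ₗ[A] W :=
    { toFun := fun x => ⟨avg x, by
        rw [havg]
        exact W.smul_of_tower_mem _ (W.sum_mem fun g _ => W.smul_mem (B.inv g) (hπ'mem _))⟩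
      map_add' := fun x y => Subtype.ext (map_add avg x y)
      map_smul' := fun a x => Subtype.ext (hlin' a x) }
  refine ⟨LinearMap.ker φ, LinearMap.isCompl_of_proj (f := φ) fun x => Subtype.ext ?_⟩
  change avg x.1 = x.1
  rw [havg]
  have : ∀ g : G, B.inv g * π' (B.basis g * x.1) = x.1 := fun g => by
    rw [hπ'id (B.basis g * x.1) (W.smul_mem (B.basis g) x.2), ← mul_assoc, B.inv_mul, one_mul]
  simp only [this, Finset.sum_const, Finset.card_univ]
  rw [← Nat.cast_smul_eq_nsmul k, ← Nat.card_eq_fintype_card, smul_smul, inv_mul_cancel₀ hG,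
    one_smul]

/-- In a split semisimple algebra, any nonzero element multiplies nontrivially with some primitive
component, presented by matrix units. -/
theorem exists_matrix_component {R : Type u} [Ring R] [Algebra k R] [IsAlgClosed k]
    [FiniteDimensional k R] [IsSemisimpleRing R] (P : R → Prop) (hP : ¬ P 1)
    (hadd : ∀ x y, P x → P y → P (x + y)) (hzero : P 0) :
    ∃ (d : ℕ) (E : Fin d → Fin d → R) (e : R) (a : Fin d),
      ¬ P (E a a) ∧ (∀ i j l, E i j * E j l = E i l) ∧ (∀ i j j' l, j ≠ j' → E i j * E j' l = 0) ∧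
      ∑ i, E i i = e ∧ (∀ x, Commute e x) ∧ (∀ x, ∃ r : k, E a a * x * E a a = r • E a a) ∧
      (∀ c : R, IsIdempotentElem c → (∀ x, Commute c x) → c * e = c → c = 0 ∨ c = e) := by
  classical
  obtain ⟨n, d, hd, ⟨φ⟩⟩ := IsSemisimpleRing.exists_algEquiv_pi_matrix_of_isAlgClosed k R
  let E : ∀ l : Fin n, Fin (d l) → Fin (d l) → R := fun l i j =>
    φ.symm (Pi.single l (Matrix.single i j 1))
  have hone : (1 : R) = ∑ l, ∑ i, E l i i := by
    apply φ.injective
    simp only [E, map_sum, map_one, AlgEquiv.apply_symm_apply]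
    ext l : 1
    rw [Finset.sum_apply, Finset.sum_eq_single l]
    · simp only [Finset.sum_apply, Pi.single_eq_same, Pi.one_apply, Matrix.sum_single_one]
    · intro b _ hb
      simp [Pi.single_eq_of_ne (Ne.symm hb)]
    · simp
  obtain ⟨l, a, hla⟩ : ∃ l a, ¬ P (E l a a) := by
    by_contra hcon
    push Not at hcon
    refine hP (hone ▸ ?_)
    exact Finset.sum_induction _ P hadd hzero fun l _ =>
      Finset.sum_induction _ P hadd hzero fun a _ => hcon l a
  refine ⟨d l, E l, φ.symm (Pi.single l 1), a, hla, ?_, ?_, ?_, ?_, ?_, ?_⟩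
  · intro i j m
    simp [E, ← map_mul, ← Pi.single_mul, Matrix.single_mul_single_same]
  · intro i j j' m h
    simp [E, ← map_mul, ← Pi.single_mul, Matrix.single_mul_single_of_ne _ _ _ _ h]
  · rw [← map_sum]
    congr 1
    ext l' : 1
    by_cases h : l' = l
    · subst h; simp [Finset.sum_apply, Matrix.sum_single_one]
    · simp [Finset.sum_apply, Pi.single_eq_of_ne h]
  · intro x
    apply φ.injective
    ext l' : 1
    by_cases h : l' = l
    · subst h; simp
    · simp [Pi.single_eq_of_ne h]
  · intro x
    refine ⟨φ x l a a, φ.injective ?_⟩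
    ext l' : 1
    by_cases h : l' = l
    · subst h
      simp only [E, map_mul, map_smul, AlgEquiv.apply_symm_apply, Pi.mul_apply, Pi.single_eq_same,
        Pi.smul_apply]
      rw [Matrix.single_mul_mul_single, Matrix.smul_single]
      simp
    · simp [E, Pi.single_eq_of_ne h]
  · intro c hc hcc hce
    have hcl : φ c l ∈ Set.range (Matrix.scalar (Fin (d l)) : k → _) := by
      refine Matrix.mem_range_scalar_of_commute_single fun i j _ => ?_
      have := congrArg (fun z => φ z l) (hcc (E l i j)).eq
      simp only [E, map_mul, AlgEquiv.apply_symm_apply, Pi.mul_apply, Pi.single_eq_same] at this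
      exact this.symm
    obtain ⟨r, hr⟩ := hcl
    have hne := hd l
    have hr2 : r * r = r := by
      have h2 : φ c l * φ c l = φ c l := by
        rw [← Pi.mul_apply, ← map_mul, hc.eq]
      rw [← hr, ← map_mul] at h2
      exact Matrix.scalar_inj.1 h2
    have hc' : c = φ.symm (Pi.single l (φ c l)) := by
      apply φ.injective
      rw [AlgEquiv.apply_symm_apply]
      conv_lhs => rw [← hce, map_mul, AlgEquiv.apply_symm_apply]
      ext l' : 1
      by_cases h : l' = l
      · subst h; simp
      · simp [Pi.single_eq_of_ne h]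
    rcases IsIdempotentElem.iff_eq_zero_or_one.1 (show IsIdempotentElem r from hr2) with h | h
    · left; rw [hc', ← hr, h, map_zero, Pi.single_zero, map_zero]
    · right; rw [hc', ← hr, h, map_one]

end Vale.Agent.P180
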