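import Vale.Agent.P180.Twisted
import Vale.Agent.P180.MatrixUnits
import Vale.Agent.P180.Semisimple
import Vale.Agent.P180.GroupBound

/-!
One reduction step: removing a nontrivial normal p'-subgroup, up to Morita equivalence.
-/

namespace Vale.Agent.P180

universe u

open Module

variable {k : Type u} [Field k] {A : Type u} [Ring A] [Algebra k A]

theorem reduce [IsAlgClosed k] {p : ℕ} [Fact p.Prime] [CharP k p] {G : Type} [Group G] [Finite G]
    (B : TwBasis k G A) {b : A} (hb : IsBlock b) {d : ℕ} (hd : B.Bounded d b) {m : ℕ}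
    (hG : VirtPSolvable p m G) (N : Subgroup G) [hN : N.Normal]
    (hpN : Nat.Coprime p (Nat.card N)) (hNne : N ≠ ⊥) :
    ∃ (Q : Type) (_ : Group Q) (_ : Finite Q) (C : Type u) (_ : Ring C) (_ : Algebra k C)
      (BC : TwBasis k Q C) (b' : C) (hb' : IsBlock b'), BC.Bounded d b' ∧ VirtPSolvable p m Q ∧
      Nat.card Q < Nat.card G ∧ IsMoritaEquivalent k hb.idem.Corner hb'.idem.Corner := by
  classical
  have : Fintype G := Fintype.ofFinite G
  -- Wedderburn data for the algebra of `N`.
  have hcard : (Nat.card N : k) ≠ 0 := by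
    rw [Ne, CharP.cast_eq_zero_iff k p]
    exact (Nat.Prime.coprime_iff_not_dvd Fact.out).1 hpN
  have := (B.restrict N).isSemisimpleRing hcard
  have : FiniteDimensional k (B.subAlg N) := Module.Finite.of_basis (B.restrict N).basis
  obtain ⟨n, E', e', a, hPa, hmul', horth', hsum', hcent', hfx', hprim'⟩ :=
    exists_matrix_component (k := k) (R := B.subAlg N) (fun x => b * x.1 = 0)
      (by simpa using hb.ne_zero) (fun x y hx hy => by simp [mul_add, hx, hy]) (by simp)
  let E : Fin n → Fin n → A := fun i j => (E' i j).1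
  let e : A := e'.1
  let f : A := E a a
  have hmul : ∀ i j l, E i j * E j l = E i l := fun i j l => congrArg Subtype.val (hmul' i j l)
  have horth : ∀ i j j' l, j ≠ j' → E i j * E j' l = 0 := fun i j j' l h =>
    congrArg Subtype.val (horth' i j j' l h)
  have hsum : ∑ i, E i i = e := by
    change ∑ i, (B.subAlg N).val (E' i i) = (B.subAlg N).val e'
    rw [← map_sum, hsum']
  have hEmem : ∀ i j, E i j ∈ B.sub N := fun i j => (E' i j).2
  have hemem : e ∈ B.sub N := e'.2
  have hfmem : f ∈ B.sub N := hEmem a a
  have hecomm : ∀ x ∈ B.sub N, Commute e x := fun x hx =>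
    congrArg Subtype.val (hcent' ⟨x, hx⟩).eq
  have hff : f * f = f := hmul a a a
  have hEe : ∀ i j, E i j * e = E i j ∧ e * E i j = E i j := by
    intro i j
    rw [← hsum, Finset.mul_sum, Finset.sum_mul]
    constructor
    · rw [Finset.sum_eq_single j (fun l _ hl => horth _ _ _ _ (Ne.symm hl)) (by simp), hmul]
    · rw [Finset.sum_eq_single i (fun l _ hl => horth _ _ _ _ hl) (by simp), hmul]
  have hee : e * e = e := by
    conv_lhs => rw [← hsum, Finset.sum_mul]
    simp [hEe, hsum]
  have hfx : ∀ x ∈ B.sub N, ∃ r : k, f * x * f = r • f := fun x hx => by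
    obtain ⟨r, hr⟩ := hfx' ⟨x, hx⟩
    exact ⟨r, congrArg Subtype.val hr⟩
  have hprim : ∀ c ∈ B.sub N, c * c = c → (∀ x ∈ B.sub N, Commute c x) → c * e = c →
      c = 0 ∨ c = e := by
    intro c hc h1 h2 h3
    rcases hprim' ⟨c, hc⟩ (Subtype.ext h1) (fun x => Subtype.ext (h2 x.1 x.2).eq)
      (Subtype.ext h3) with h | h
    · exact Or.inl (congrArg Subtype.val h)
    · exact Or.inr (congrArg Subtype.val h)
  have hbf : b * f ≠ 0 := hPa
  have hf0 : f ≠ 0 := fun h => hbf (by rw [h, mul_zero])
  -- The stabiliser of `e`.
  let T : Subgroup G :=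
    { carrier := {g | B.act g e = e}
      one_mem' := B.act_one e
      mul_mem' := fun {g h} hg hh => by
        change B.act (g * h) e = e
        rw [B.act_mul, show B.act h e = e from hh]; exact hg
      inv_mem' := fun {g} hg => by
        change B.act g⁻¹ e = e
        conv_lhs => rw [← show B.act g e = e from hg]
        exact B.act_inv_act g e }
  have hNT : N ≤ T := fun n hn => B.act_of_commute (hecomm _ (B.basis_mem_sub hn)).symm
  have hcommAct : ∀ g, ∀ x ∈ B.sub N, Commute (B.act g e) x := by
    intro g x hx
    have h := (hecomm _ (B.act_mem_sub g⁻¹ hx)).map (B.act g)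
    rwa [← B.act_mul, mul_inv_cancel, B.act_one] at h
  have he0 : e ≠ 0 := fun h => hf0 (by change E a a = 0; rw [← (hEe a a).1, h, mul_zero])
  have horthT : ∀ g, g ∉ T → e * B.act g e = 0 := by
    intro g hg
    let c := e * B.act g e
    have hge := B.act_mem_sub g hemem
    have hcm : c ∈ B.sub N := B.sub_mul hemem hge
    have hcc : c * c = c := by
      change e * B.act g e * (e * B.act g e) = e * B.act g e
      rw [mul_assoc, ← mul_assoc (B.act g e), (hcommAct g e hemem).eq, mul_assoc e,
        ← map_mul, hee, ← mul_assoc, hee]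
    have hccomm : ∀ x ∈ B.sub N, Commute c x := fun x hx =>
      (hecomm x hx).mul_left (hcommAct g x hx)
    have hce : c * e = c := by
      change e * B.act g e * e = e * B.act g e
      rw [mul_assoc, (hcommAct g e hemem).eq, ← mul_assoc, hee]
    rcases hprim c hcm hcc hccomm hce with h | h
    · exact h
    · exfalso
      apply hg
      change B.act g e = e
      let c' := B.act g⁻¹ c
      have h' : c' = B.act g⁻¹ e * e := by
        simp only [c', c, map_mul, B.act_inv_act]
      rcases hprim c' (B.act_mem_sub _ hcm) (by rw [← map_mul, hcc])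
        (fun x hx => by
          rw [h']; exact (hcommAct _ x hx).mul_left (hecomm x hx))
        (by rw [h', mul_assoc, hee]) with h2 | h2
      · exfalso
        apply he0
        rw [← h]
        exact (map_eq_zero_iff _ (B.act g⁻¹).injective).1 h2
      · have := congrArg (B.act g) h2
        rw [← B.act_mul, mul_inv_cancel, B.act_one] at this
        rw [← this]
        exact h
  -- Matrix units for the block.
  let Y := G ⧸ T
  have : Fintype Y := Fintype.ofFinite Y
  have hout : ∀ x y : Y, x ≠ y → x.out⁻¹ * y.out ∉ T := by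
    intro x y hxy h
    apply hxy
    rw [← QuotientGroup.out_eq' x, ← QuotientGroup.out_eq' y]
    exact QuotientGroup.eq.2 h
  have hsandwich : ∀ g, g ∉ T → e * B.basis g * e = 0 := by
    intro g hg
    rw [mul_assoc, B.basis_mul, ← mul_assoc, horthT g hg, zero_mul]
  let Etot := ∑ y : Y, B.act y.out e
  have hEtot_act : ∀ g, B.act g Etot = Etot := by
    intro g
    simp only [Etot, map_sum]
    refine Fintype.sum_equiv (MulAction.toPerm g) _ _ fun y => ?_
    rw [← B.act_mul]
    obtain ⟨t, ht⟩ := QuotientGroup.mk_out_eq_mul T (g * y.out)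
    have hgy : MulAction.toPerm g y = ((g * y.out : G) : Y) := by
      conv_lhs => rw [← QuotientGroup.out_eq' y]
      rfl
    rw [hgy, ht, B.act_mul _ (t : G), show B.act (t : G) e = e from t.2]
  have hEtot_central : ∀ x, Commute Etot x := B.commute_of_forall fun g => by
    rw [B.basis_mul, hEtot_act]
  have hEidem : Etot * Etot = Etot := by
    simp only [Etot, Finset.mul_sum, Finset.sum_mul]
    refine Finset.sum_congr rfl fun u _ => ?_
    rw [Finset.sum_eq_single u (fun v _ hv => ?_) (by simp), ← map_mul, hee]
    have h := congrArg (B.act v.out) (horthT _ (hout _ _ hv))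
    rwa [map_mul, map_zero, ← B.act_mul, mul_inv_cancel_left] at h
  have hbe : b * e ≠ 0 := by
    intro h
    apply hbf
    change b * E a a = 0
    rw [← (hEe a a).2, ← mul_assoc, h, zero_mul]
  have hEtote : Etot * e = e := by
    simp only [Etot]; rw [Finset.sum_mul, Finset.sum_eq_single ((1 : G) : Y)]
    · obtain ⟨t, ht⟩ := QuotientGroup.mk_out_eq_mul T (1 : G)
      rw [ht, one_mul, show B.act (t : G) e = e from t.2, hee]
    · intro y _ hy
      rw [(hcommAct _ e hemem).eq]
      refine horthT _ fun h => hy ?_
      rw [← QuotientGroup.out_eq' y]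
      exact (QuotientGroup.eq.2 (by simpa using h)).symm
    · simp
  have hbEtot : b * Etot = b := by
    have hid : IsIdempotentElem (b * Etot) := by
      change b * Etot * (b * Etot) = b * Etot
      rw [mul_assoc, ← mul_assoc Etot, ← (hb.central Etot).eq, mul_assoc b Etot, hEidem,
        ← mul_assoc, hb.idem.eq]
    rcases hb.primitive _ hid (fun x => (hb.central x).mul_left (hEtot_central x))
      (by rw [mul_assoc, (hEtot_central b).eq, ← mul_assoc, hb.idem.eq]) with h | h
    · exact absurd (by rw [← hEtote, ← mul_assoc, h, zero_mul] : b * e = 0) hbe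
    · exact h
  obtain ⟨t₁, ht₁⟩ := QuotientGroup.mk_out_eq_mul T (1 : G)
  rw [one_mul] at ht₁
  -- replace the representative of the trivial coset by `1`
  let x₀ : Y := ((1 : G) : Y)
  let rep : Y → G := fun y => if y = x₀ then 1 else y.out
  have hrep : ∀ y : Y, ((rep y : G) : Y) = y := by
    intro y
    by_cases h : y = x₀
    · subst h; simp [rep, x₀]
    · simp [rep, h, QuotientGroup.out_eq']
  let F' : Y × Fin n → Y × Fin n → A := fun u v =>
    B.basis (rep u.1) * E u.2 v.2 * B.inv (rep v.1)
  have hF'mul : ∀ u v w, F' u v * F' v w = F' u w := by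
    intro u v w
    change B.basis _ * E _ _ * B.inv _ * (B.basis _ * E _ _ * B.inv _) = B.basis _ * E _ _ * B.inv _
    rw [← hmul u.2 v.2 w.2]
    simp only [mul_assoc]
    rw [← mul_assoc (B.inv (rep v.1)) (B.basis (rep v.1)), B.inv_mul, one_mul]
  have hF'orth : ∀ u v v' w, v ≠ v' → F' u v * F' v' w = 0 := by
    intro u v v' w hne
    change B.basis _ * E _ _ * B.inv _ * (B.basis _ * E _ _ * B.inv _) = 0
    have key : E u.2 v.2 * (B.inv (rep v.1) * B.basis (rep v'.1)) * E v'.2 w.2 = 0 := by
      by_cases h1 : v.1 = v'.1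
      · have h2 : v.2 ≠ v'.2 := fun h2 => hne (Prod.ext h1 h2)
        rw [h1, B.inv_mul, mul_one, horth _ _ _ _ h2]
      · have hg := hsandwich ((rep v.1)⁻¹ * rep v'.1) (fun h => h1 (by
          rw [← hrep v.1, ← hrep v'.1]; exact QuotientGroup.eq.2 h))
        rw [TwBasis.inv, smul_mul_assoc, B.mul, smul_smul, mul_smul_comm, smul_mul_assoc,
          ← (hEe u.2 v.2).1, ← (hEe v'.2 w.2).2, mul_assoc (E u.2 v.2), ← mul_assoc,
          mul_assoc (E u.2 v.2), hg, mul_zero, zero_mul, smul_zero]
    calc _ = B.basis (rep u.1) * (E u.2 v.2 * (B.inv (rep v.1) * B.basis (rep v'.1)) * E v'.2 w.2)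
          * B.inv (rep w.1) := by simp only [mul_assoc]
      _ = 0 := by rw [key, mul_zero, zero_mul]
  have hF'sum : ∑ u, F' u u = Etot := by
    simp only [Fintype.sum_prod_type]
    refine Finset.sum_congr rfl fun y _ => ?_
    have h1 : ∑ i, F' (y, i) (y, i) = B.act (rep y) e := by rw [← hsum, map_sum]; rfl
    obtain ⟨t, ht⟩ := QuotientGroup.mk_out_eq_mul T (rep y)
    rw [hrep] at ht
    rw [h1, ht, B.act_mul, show B.act (t : G) e = e from t.2]
  let U : Units' b (Y × Fin n) := ⟨F', hF'mul, hF'orth, by rw [hF'sum, hbEtot]⟩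
  let i₀ : Y × Fin n := (x₀, a)
  have hUE : U.E i₀ i₀ = f := by
    change B.basis (rep x₀) * E a a * B.inv (rep x₀) = f
    rw [show rep x₀ = 1 from if_pos rfl, ← B.act_apply, B.act_one]
  have hmor : IsMoritaEquivalent k hb.idem.Corner (U.idem hb.idem hb.central i₀).Corner :=
    U.morita hb.idem hb.central i₀
  -- The small twisted group algebra.
  have hf : IsIdempotentElem f := hff
  let N' : Subgroup T := N.subgroupOf T
  have : N'.Normal := hN.comap _
  let Q := T ⧸ N'
  let C := hf.Corner
  -- a partner for `f` and each element of `T`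
  have hy : ∀ t : T, ∃ y z : A, y ∈ B.sub N ∧ z ∈ B.sub N ∧ f * y = y ∧ y * B.act t.1 f = y ∧
      B.act t.1 f * z = z ∧ z * f = z ∧ y * z = f ∧ z * y = B.act t.1 f := by
    intro t
    let f' := B.act t.1 f
    have hf'mem : f' ∈ B.sub N := B.act_mem_sub _ hfmem
    have hf'e : e * f' * e = f' := by
      conv_lhs => rw [← show B.act t.1 e = e from t.2, ← map_mul, ← map_mul, (hEe a a).2,
        (hEe a a).1]
    have hf'0 : f' ≠ 0 := fun h => hf0 ((map_eq_zero_iff _ (B.act t.1).injective).1 h)
    have hf'f' : f' * f' = f' := by rw [← map_mul, hff]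
    have hf'x : ∀ x ∈ B.sub N, ∃ r : k, f' * x * f' = r • f' := by
      intro x hx
      obtain ⟨r, hr⟩ := hfx _ (B.act_mem_sub t.1⁻¹ hx)
      refine ⟨r, ?_⟩
      have := congrArg (B.act t.1) hr
      rwa [map_mul, map_mul, ← B.act_mul, mul_inv_cancel, B.act_one, map_smul] at this
    obtain ⟨i, j, hij⟩ : ∃ i j, E a i * f' * E j a ≠ 0 := by
      by_contra hcon
      push Not at hcon
      apply hf'0
      rw [← hf'e, ← hsum, Finset.sum_mul, Finset.sum_mul]
      refine Finset.sum_eq_zero fun i _ => ?_
      rw [Finset.mul_sum]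
      refine Finset.sum_eq_zero fun j _ => ?_
      rw [← hmul i a i, ← hmul j a j]
      calc E i a * E a i * f' * (E j a * E a j) = E i a * (E a i * f' * E j a) * E a j := by
            simp only [mul_assoc]
        _ = 0 := by rw [hcon, mul_zero, zero_mul]
    obtain ⟨l, hl⟩ := hfx _ (B.sub_mul (B.sub_mul (hEmem a i) hf'mem) (hEmem j a))
    have hfE : f * E a i = E a i := hmul a a i
    have hEf : E j a * f = E j a := hmul j a a
    have hl' : E a i * f' * E j a = l • f := by
      rw [← hl, ← mul_assoc f, ← mul_assoc f, hfE, mul_assoc _ (E j a), hEf]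
    have hl0 : l ≠ 0 := fun h => hij (by rw [hl', h, zero_smul])
    let y := E a i * f'
    let z := l⁻¹ • (f' * E j a)
    have hyz : y * z = f := by
      change E a i * f' * (l⁻¹ • (f' * E j a)) = f
      rw [mul_smul_comm, mul_assoc, ← mul_assoc f', hf'f', ← mul_assoc, hl', inv_smul_smul₀ hl0]
    have hfy : f * y = y := by
      change f * (E a i * f') = E a i * f'
      rw [← mul_assoc, hfE]
    have hyf : y * f' = y := by
      change E a i * f' * f' = E a i * f'
      rw [mul_assoc, hf'f']
    have hfz : f' * z = z := by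
      change f' * (l⁻¹ • (f' * E j a)) = l⁻¹ • (f' * E j a)
      rw [mul_smul_comm, ← mul_assoc, hf'f']
    have hzf : z * f = z := by
      change l⁻¹ • (f' * E j a) * f = l⁻¹ • (f' * E j a)
      rw [smul_mul_assoc, mul_assoc, hEf]
    obtain ⟨μ, hμ⟩ := hf'x (z * y) (B.sub_mul (Submodule.smul_mem _ _
      (B.sub_mul hf'mem (hEmem j a))) (B.sub_mul (hEmem a i) hf'mem))
    rw [← mul_assoc, hfz, mul_assoc, hyf] at hμ
    have hμ2 : μ * μ = μ := by
      have h2 : z * y * (z * y) = z * y := by
        rw [mul_assoc, ← mul_assoc y z y, hyz, hfy]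
      rw [hμ, smul_mul_smul_comm, hf'f'] at h2
      exact smul_left_injective k hf'0 h2
    rcases IsIdempotentElem.iff_eq_zero_or_one.1 (show IsIdempotentElem μ from hμ2) with h | h
    · exfalso
      apply hf0
      rw [h, zero_smul] at hμ
      calc f = y * z * (y * z) := by rw [hyz, hff]
        _ = y * (z * y) * z := by simp only [mul_assoc]
        _ = 0 := by rw [hμ, mul_zero, zero_mul]
    · rw [h, one_smul] at hμ
      exact ⟨y, z, B.sub_mul (hEmem a i) hf'mem,
        Submodule.smul_mem _ _ (B.sub_mul hf'mem (hEmem j a)), hfy, hyf, hfz, hzf, hyz, hμ⟩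
  choose yv zv hym hzm hfy hyf hfz hzf hyz hzy using hy
  -- elements `f x f` with `x` in the coset of `t`
  have hline : ∀ t : T, ∀ x ∈ B.sub N, ∃ r : k,
      f * (x * B.basis t.1) * f = r • (yv t * B.basis t.1) := by
    intro t x hx
    obtain ⟨r, hr⟩ := hfx _ (B.sub_mul (B.sub_mul hx (B.act_mem_sub t.1 hfmem)) (hzm t))
    refine ⟨r, ?_⟩
    have e1 : f * (x * B.basis t.1) * f = f * (x * B.act t.1 f) * B.basis t.1 := by
      simp only [mul_assoc]; rw [B.basis_mul]
    have e2 : f * (x * B.act t.1 f) = r • yv t := by
      calc f * (x * B.act t.1 f) = f * (x * (B.act t.1 f * B.act t.1 f)) := by rw [← map_mul, hff]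
        _ = f * (x * B.act t.1 f * zv t) * yv t := by
            conv_lhs => arg 2; arg 2; arg 2; rw [← hzy t]
            simp only [mul_assoc]
        _ = r • yv t := by
            rw [← hfy t, ← mul_assoc, hr, smul_mul_assoc, hfy t]
    rw [e1, e2, smul_mul_assoc]
  let rq : Q → T := fun q => q.out
  let vA : Q → A := fun q => yv (rq q) * B.basis (rq q).1
  have hvC : ∀ q, f * vA q = vA q ∧ vA q * f = vA q := by
    intro q
    refine ⟨by rw [← mul_assoc, hfy], ?_⟩
    change yv _ * B.basis _ * f = yv _ * B.basis _
    rw [mul_assoc, B.basis_mul, ← mul_assoc, hyf]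
  let v : Q → C := fun q => toCorner hf (vA q) (hvC q).1 (hvC q).2
  have hcoset : ∀ g : T, ∃ nn ∈ N, g.1 = nn * (rq (g : Q)).1 := by
    intro g
    refine ⟨g.1 * ((rq (g : Q)).1)⁻¹, ?_, by simp⟩
    have h : (rq (g : Q))⁻¹ * g ∈ N' := QuotientGroup.eq.1 (QuotientGroup.out_eq' (g : Q))
    have h2 : (rq (g : Q)).1⁻¹ * g.1 ∈ N := h
    simpa [mul_assoc] using hN.conj_mem _ h2 (rq (g : Q)).1
  have hspanv : ∀ g : G, f * B.basis g * f ∈ Submodule.span k (Set.range vA) := by
    intro g
    by_cases hg : g ∈ T
    · obtain ⟨nn, hnn, hgn⟩ := hcoset ⟨g, hg⟩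
      have hgn' : g = nn * (rq ((⟨g, hg⟩ : T) : Q)).1 := hgn
      rw [hgn', B.basis_mem, ← smul_mul_assoc]
      obtain ⟨r, hr⟩ := hline (rq _) _ (Submodule.smul_mem (B.sub N) _ (B.basis_mem_sub hnn))
      rw [hr]
      exact Submodule.smul_mem _ _ (Submodule.subset_span ⟨_, rfl⟩)
    · have : f * B.basis g * f = 0 :=
        calc f * B.basis g * f = E a a * e * B.basis g * (e * E a a) := by
              rw [(hEe a a).1, (hEe a a).2]
          _ = E a a * (e * B.basis g * e) * E a a := by simp only [mul_assoc]
          _ = 0 := by rw [hsandwich g hg, mul_zero, zero_mul]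
      rw [this]
      exact Submodule.zero_mem _
  have hli : LinearIndependent k vA := by
    rw [Fintype.linearIndependent_iff]
    intro cf hcf q
    have hsupp : ∀ q' : Q, ∀ g : G, B.basis.repr (vA q') g ≠ 0 →
        g * ((rq q').1)⁻¹ ∈ N := by
      intro q'
      have hmem : vA q' ∈ Submodule.span k (B.basis '' {g | g * ((rq q').1)⁻¹ ∈ N}) := by
        change yv (rq q') * B.basis _ ∈ _
        have hh := hym (rq q')
        revert hh
        generalize yv (rq q') = yy
        intro hh
        induction hh using Submodule.span_induction with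
        | mem x hx =>
          obtain ⟨nn, hnn, rfl⟩ := hx
          rw [B.mul]
          exact Submodule.smul_mem _ _ (Submodule.subset_span ⟨_, by simpa using hnn, rfl⟩)
        | zero => simp
        | add x y _ _ ix iy => rw [add_mul]; exact Submodule.add_mem _ ix iy
        | smul r x _ ix => rw [smul_mul_assoc]; exact Submodule.smul_mem _ _ ix
      intro g hg
      exact B.basis.mem_span_image.1 hmem (Finsupp.mem_support_iff.2 hg)
    have hvne : vA q ≠ 0 := by
      intro h
      apply hf0
      have h0 : yv (rq q) = 0 := by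
        have := congrArg (fun z => z * B.inv (rq q).1) h
        simpa [vA, mul_assoc, B.mul_inv] using this
      rw [← hyz (rq q), h0, zero_mul]
    obtain ⟨g, hg⟩ : ∃ g, B.basis.repr (vA q) g ≠ 0 := by
      by_contra hcon
      push Not at hcon
      exact hvne (B.basis.repr.injective (by ext g; simpa using hcon g))
    have := congrArg (fun z => B.basis.repr z g) hcf
    simp only [map_sum, map_smul, map_zero, Finsupp.coe_finsetSum, Finset.sum_apply,
      Finsupp.smul_apply, Finsupp.zero_apply, smul_eq_mul] at this
    rw [Finset.sum_eq_single q (fun q' _ hne => ?_) (by simp)] at this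
    · exact (mul_eq_zero.1 this).resolve_right hg
    · by_contra h
      apply hne
      have h1 := hsupp q' g (right_ne_zero_of_mul h)
      have h2 := hsupp q g hg
      have h3 : (rq q').1 * (rq q).1⁻¹ ∈ N := by
        have := N.mul_mem (N.inv_mem h1) h2
        simpa [mul_assoc] using this
      have h4 : (rq q').1⁻¹ * (rq q).1 ∈ N := by
        have := hN.conj_mem _ (N.inv_mem h3) (rq q').1⁻¹
        simpa [mul_assoc] using this
      rw [← QuotientGroup.out_eq' q', ← QuotientGroup.out_eq' q]
      exact QuotientGroup.eq.2 h4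
  let CL : C →ₗ[k] A :=
    { toFun := fun x => x.1, map_add' := fun _ _ => rfl, map_smul' := fun _ _ => rfl }
  have hliC : LinearIndependent k v := LinearIndependent.of_comp CL hli
  have hspanC : ⊤ ≤ Submodule.span k (Set.range v) := by
    intro x _
    have h1 : x.1 ∈ Submodule.span k (Set.range vA) := by
      obtain ⟨e1, e2⟩ := mem_corner hf x
      rw [← e2, ← e1, ← B.basis.linearCombination_repr x.1, Finsupp.linearCombination_apply,
        Finsupp.sum, Finset.mul_sum, Finset.sum_mul]
      refine Submodule.sum_mem _ fun g _ => ?_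
      rw [mul_smul_comm, smul_mul_assoc]
      exact Submodule.smul_mem _ _ (hspanv g)
    have h2 : Set.range vA = CL '' Set.range v := by
      rw [← Set.range_comp]; rfl
    rw [h2, ← Submodule.map_span] at h1
    obtain ⟨x', hx', hxx⟩ := h1
    rwa [show x = x' from Subtype.ext hxx.symm]
  have hvmul : ∀ q r : Q, ∃ s : k, s ≠ 0 ∧ vA q * vA r = s • vA (q * r) := by
    intro q r
    let t := rq q * rq r
    obtain ⟨nn, hnn, htn⟩ := hcoset t
    have htQ : (t : Q) = q * r := by
      simp only [t, rq, QuotientGroup.mk_mul, QuotientGroup.out_eq']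
    rw [htQ] at htn
    let α := B.c (rq q).1 (rq r).1 * (B.c nn (rq (q * r)).1)⁻¹
    have e1 : vA q * vA r =
        α • (yv (rq q) * B.act (rq q).1 (yv (rq r)) * B.basis nn * B.basis (rq (q * r)).1) := by
      change yv _ * B.basis _ * (yv _ * B.basis _) = _
      rw [mul_assoc, ← mul_assoc (B.basis _) (yv _), B.basis_mul, mul_assoc (B.act _ _), B.mul,
        mul_assoc (yv (rq q) * _) (B.basis nn), B.mul, ← htn]
      simp only [mul_smul_comm, smul_smul, α, t, Subgroup.coe_mul, ← mul_assoc]
      rw [inv_mul_cancel_right₀ (B.c_ne _ _)]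
    obtain ⟨s, hs⟩ := hline (rq (q * r)) (α • (yv (rq q) * B.act (rq q).1 (yv (rq r)) * B.basis nn))
      (Submodule.smul_mem _ _
        (B.sub_mul (B.sub_mul (hym _) (B.act_mem_sub _ (hym _))) (B.basis_mem_sub hnn)))
    rw [smul_mul_assoc, ← e1, ← mul_assoc f, (hvC q).1, mul_assoc, (hvC r).2] at hs
    refine ⟨s, ?_, hs⟩
    intro hs0
    rw [hs0, zero_smul] at hs
    let w : Q → A := fun q => B.inv (rq q).1 * zv (rq q)
    have hvw : ∀ q, vA q * w q = f := by
      intro q
      change yv _ * B.basis _ * (B.inv _ * zv _) = f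
      rw [mul_assoc, ← mul_assoc (B.basis _), B.mul_inv, one_mul, hyz]
    apply hf0
    calc f = vA q * (vA r * w r) * w q := by rw [hvw, (hvC q).2, hvw]
      _ = 0 := by rw [← mul_assoc (vA q), hs, zero_mul, zero_mul]
  choose sc hsc0 hsc using hvmul
  let BC : TwBasis k Q C :=
    { basis := Basis.mk hliC hspanC
      c := sc
      c_ne := hsc0
      mul := fun q r => by
        simp only [Basis.coe_mk]
        exact Subtype.ext (hsc q r) }
  -- The block of the small algebra.
  have hD : ∀ d : (U.idem hb.idem hb.central i₀).Corner,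
      b * f * d.1 = d.1 ∧ d.1 * (b * f) = d.1 := by
    intro d
    rw [← hUE]
    exact mem_corner _ d
  have hfD : ∀ x : (U.idem hb.idem hb.central i₀).Corner, f * x.1 = x.1 ∧ x.1 * f = x.1 := by
    intro x
    refine ⟨?_, ?_⟩
    · rw [← (hD x).1, ← mul_assoc, ← mul_assoc, ← (hb.central f).eq, mul_assoc b f f, hff]
    · rw [← (hD x).2, mul_assoc, mul_assoc, hff]
  let b' : C := toCorner hf (b * f)
    (by rw [← mul_assoc, ← (hb.central f).eq, mul_assoc, hff]) (by rw [mul_assoc, hff])
  have hb'c : ∀ x : C, Commute b' x := by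
    intro x
    apply Subtype.ext
    change b * f * x.1 = x.1 * (b * f)
    rw [mul_assoc, (mem_corner hf x).1, ← mul_assoc, ← (hb.central x.1).eq, mul_assoc,
      (mem_corner hf x).2]
  have hb' : IsBlock b' := by
    refine ⟨fun h => hbf (congrArg Subtype.val h), ?_, hb'c, ?_⟩
    · exact Subtype.ext (show b * f * (b * f) = b * f by
        rw [mul_assoc, ← mul_assoc f, ← (hb.central f).eq, mul_assoc b f f, hff, ← mul_assoc,
          hb.idem.eq])
    · intro c hc hcc hcb
      have hcA : c.1 * (b * f) = c.1 := congrArg Subtype.val hcb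
      have hcf := mem_corner hf c
      have hcb' : b * c.1 = c.1 := by
        conv_rhs => rw [← hcA]
        rw [← mul_assoc, ← (hb.central c.1).eq, mul_assoc, hcf.2]
      have hcU : U.E i₀ i₀ * c.1 * U.E i₀ i₀ = c.1 := by rw [hUE, hcf.1, hcf.2]
      let Φ := U.equiv (k := k) hb.idem hb.central i₀
      let cD : (U.idem hb.idem hb.central i₀).Corner := toCorner _ c.1
        (by rw [hUE, mul_assoc, hcf.1, hcb']) (by rw [hUE, hcA])
      let M := Matrix.scalar (Y × Fin n) cD
      have hMc : ∀ z, Commute M z := fun z => Matrix.scalar_commute cD (fun d => by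
        apply Subtype.ext
        exact (show c.1 * d.1 = d.1 * c.1 from congrArg Subtype.val (hcc (toCorner hf d.1 (hfD d).1 (hfD d).2)).eq)) z
      let cB := Φ.symm M
      have hcBc : ∀ x : hb.idem.Corner, Commute cB x := fun x => by
        have := (hMc (Φ x)).map Φ.symm
        rwa [AlgEquiv.symm_apply_apply] at this
      have hcBi : IsIdempotentElem cB := by
        change cB * cB = cB
        rw [← map_mul, ← map_mul]
        congr 2
        exact Subtype.ext (show c.1 * c.1 = c.1 from congrArg Subtype.val hc.eq)
      obtain ⟨hc1, hc2⟩ := mem_corner hb.idem cB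
      have hcA' : ∀ x : A, Commute cB.1 x := by
        intro x
        have hx := congrArg Subtype.val (hcBc (toCorner hb.idem (b * x)
          (by rw [← mul_assoc, hb.idem.eq])
          (by rw [mul_assoc, ← (hb.central x).eq, ← mul_assoc, hb.idem.eq]))).eq
        change cB.1 * (b * x) = b * x * cB.1 at hx
        rwa [← mul_assoc, hc2, (hb.central x).eq, mul_assoc, hc1] at hx
      have hcomp : M i₀ i₀ = cD := by simp [M]
      rcases hb.primitive cB.1 (congrArg Subtype.val hcBi.eq) hcA' hc2 with h | h
      · left
        have h0 : cB = 0 := Subtype.ext h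
        have hM : M = 0 := by
          rw [← Φ.apply_symm_apply M]; change Φ cB = 0; rw [h0, map_zero]
        apply Subtype.ext
        have := congrArg (fun z => (z i₀ i₀).1) hM
        simp only [hcomp] at this
        exact this
      · right
        have h0 : cB = 1 := Subtype.ext h
        have hM : M = 1 := by
          rw [← Φ.apply_symm_apply M]; change Φ cB = 1; rw [h0, map_one]
        apply Subtype.ext
        have := congrArg (fun z => (z i₀ i₀).1) hM
        simp only [hcomp, Matrix.one_apply_eq] at this
        exact this.trans (show b * U.E i₀ i₀ = b * f by rw [hUE])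
  -- Bounded.
  have hbd : BC.Bounded d b' := by
    obtain ⟨X, _, _, av, hav, hX, hsumX⟩ := hd
    let ae : X → A := fun x => e * av x * e
    have hae : ∀ (t : T) x, B.basis t.1 * ae x = ae (t.1 • x) * B.basis t.1 := by
      intro t x
      have hte : B.basis t.1 * e = e * B.basis t.1 := by
        rw [B.basis_mul, show B.act t.1 e = e from t.2]
      change B.basis t.1 * (e * av x * e) = e * av (t.1 • x) * e * B.basis t.1
      rw [← mul_assoc, ← mul_assoc, hte, mul_assoc e, hav]
      simp only [mul_assoc]
      rw [hte]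
    let Xo := MulAction.orbitRel.Quotient N X
    have : Fintype Xo := Fintype.ofFinite Xo
    let yo : Xo → A := fun o => ∑ x ∈ Finset.univ.filter (fun x => (Quotient.mk'' x : Xo) = o), ae x
    let tact : T → Xo → Xo := fun t => Quotient.map' (fun x => t.1 • x) (by
      intro x y h
      obtain ⟨nn, hnn⟩ := MulAction.orbitRel_apply.1 h
      refine MulAction.orbitRel_apply.2 ⟨⟨t.1 * nn.1 * t.1⁻¹, hN.conj_mem _ nn.2 _⟩, ?_⟩
      simp only [← hnn, Subgroup.mk_smul, Subgroup.smul_def, mul_smul, inv_smul_smul])
    have hnx : ∀ (nn : N) (x : X), (Quotient.mk'' (nn.1 • x) : Xo) = Quotient.mk'' x :=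
      fun nn x => Quotient.eq''.2 (MulAction.orbitRel_apply.2 ⟨nn, rfl⟩)
    let perm : T →* Equiv.Perm Xo :=
      { toFun := fun t =>
          { toFun := tact t
            invFun := tact t⁻¹
            left_inv := fun o => by
              induction o using Quotient.inductionOn' with | h x => simp [tact, inv_smul_smul]
            right_inv := fun o => by
              induction o using Quotient.inductionOn' with | h x => simp [tact, smul_inv_smul] }
        map_one' := by
          ext o; induction o using Quotient.inductionOn' with | h x => simp [tact]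
        map_mul' := fun s t => by
          ext o; induction o using Quotient.inductionOn' with | h x => simp [tact, mul_smul] }
    have hker : N' ≤ perm.ker := by
      intro t ht
      rw [MonoidHom.mem_ker]
      ext o
      induction o using Quotient.inductionOn' with
      | h x => exact hnx ⟨t.1, ht⟩ x
    let actQ := QuotientGroup.lift N' perm hker
    let : MulAction Q Xo :=
      { smul := fun q o => actQ q o
        one_smul := fun o => by change actQ 1 o = o; rw [map_one]; rfl
        mul_smul := fun q r o => by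
          change actQ (q * r) o = actQ q (actQ r o); rw [map_mul]; rfl }
    have hsm : ∀ (t : T) (x : X),
        ((t : Q) • (Quotient.mk'' x : Xo)) = Quotient.mk'' (t.1 • x) := fun t x => rfl
    have hyo : ∀ (t : T) (o : Xo), B.basis t.1 * yo o = yo ((t : Q) • o) * B.basis t.1 := by
      intro t o
      simp only [yo, Finset.mul_sum, Finset.sum_mul]
      refine Finset.sum_equiv (MulAction.toPerm t.1) (fun x => ?_) (fun x _ => hae t x)
      simp only [Finset.mem_filter, Finset.mem_univ, true_and, MulAction.toPerm_apply]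
      rw [← hsm]
      exact (MulAction.injective (t : Q)).eq_iff.symm
    have hyN : ∀ o, ∀ x ∈ B.sub N, Commute (yo o) x := by
      intro o x hx
      induction hx using Submodule.span_induction with
      | mem x hx =>
        obtain ⟨nn, hnn, rfl⟩ := hx
        have h := hyo ⟨nn, hNT hnn⟩ o
        rw [show ((⟨nn, hNT hnn⟩ : T) : Q) = 1 from (QuotientGroup.eq_one_iff _).2 hnn,
          one_smul] at h
        exact h.symm
      | zero => exact Commute.zero_right _
      | add x y _ _ ix iy => exact ix.add_right iy
      | smul r x _ ix => exact ix.smul_right r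
    let aC : Xo → C := fun o => toCorner hf (yo o * f)
      (by rw [← mul_assoc, ← (hyN o f hfmem).eq, mul_assoc, hff]) (by rw [mul_assoc, hff])
    refine ⟨Xo, inferInstance, inferInstance, aC, ?_, ?_, ?_⟩
    · intro q o
      apply Subtype.ext
      simp only [BC, Basis.coe_mk]
      change vA q * (yo o * f) = yo (q • o) * f * vA q
      have hq : ((rq q : T) : Q) = q := QuotientGroup.out_eq' q
      calc vA q * (yo o * f) = yv (rq q) * (B.basis (rq q).1 * yo o) * f := by
            simp only [vA, mul_assoc]
        _ = yv (rq q) * yo (q • o) * B.basis (rq q).1 * f := by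
            rw [hyo, hq]; simp only [mul_assoc]
        _ = yo (q • o) * (vA q * f) := by
            rw [← (hyN (q • o) _ (hym _)).eq]; simp only [vA, mul_assoc]
        _ = yo (q • o) * f * vA q := by rw [(hvC q).2, mul_assoc, (hvC q).1]
    · intro o
      induction o using Quotient.inductionOn' with
      | h x =>
        refine le_trans ?_ (hX x)
        have hST : MulAction.stabilizer T x ≤ (MulAction.stabilizer G x).comap T.subtype :=
          fun t ht => ht
        refine le_trans (Nat.card_le_card_of_surjective
          (fun s : MulAction.stabilizer T x => (⟨((s : T) : Q), by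
            change ((s : T) : Q) • (Quotient.mk'' x : Xo) = Quotient.mk'' x
            rw [hsm]; exact congrArg _ s.2⟩ :
            MulAction.stabilizer Q (Quotient.mk'' x : Xo))) ?_) ?_
        · rintro ⟨q, hq⟩
          induction q using QuotientGroup.induction_on with
          | _ t =>
            have hq' : (Quotient.mk'' (t.1 • x) : Xo) = Quotient.mk'' x := hq
            obtain ⟨nn, hnn⟩ := MulAction.orbitRel_apply.1 (Quotient.eq''.1 hq')
            let nT : T := ⟨nn.1, hNT nn.2⟩
            refine ⟨⟨nT⁻¹ * t, ?_⟩, Subtype.ext ?_⟩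
            · change (nn.1⁻¹ * t.1) • x = x
              rw [mul_smul, ← show nn.1 • x = t.1 • x from hnn, inv_smul_smul]
            · change (nT : Q)⁻¹ * (t : Q) = (t : Q)
              rw [show (nT : Q) = 1 from (QuotientGroup.eq_one_iff _).2 nn.2, inv_one, one_mul]
        · exact Nat.card_le_card_of_injective
            (fun s : MulAction.stabilizer T x => (⟨s.1.1, hST s.2⟩ : MulAction.stabilizer G x))
            (fun s t h => Subtype.ext (Subtype.ext (congrArg (fun z : _ => z.1) h)))
    · apply Subtype.ext
      rw [show (∑ o, aC o).1 = ∑ o, (aC o).1 from map_sum (cornerVal hf) _ _]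
      change ∑ o, yo o * f = b * f
      rw [← Finset.sum_mul, show ∑ o, yo o = ∑ x, ae x from Finset.sum_fiberwise _ _ _]
      simp only [ae]
      rw [← Finset.sum_mul, ← Finset.mul_sum, hsumX, mul_assoc (e * b) e f, (hEe a a).2,
        ← (hb.central e).eq, mul_assoc, (hEe a a).2]
  -- Class and size.
  have hlt : Nat.card Q < Nat.card G := by
    refine lt_of_lt_of_le ?_ (Nat.card_le_card_of_injective _ T.subtype_injective)
    change Nat.card (T ⧸ N') < Nat.card T
    rw [← N'.card_mul_index]
    refine lt_mul_of_one_lt_left (Nat.pos_of_ne_zero Subgroup.index_ne_zero_of_finite) ?_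
    rw [Nat.card_congr (Subgroup.subgroupOfEquivOfLe hNT).toEquiv]
    exact (Subgroup.one_lt_card_iff_ne_bot N).2 hNne
  refine ⟨Q, inferInstance, inferInstance, C, inferInstance, inferInstance, BC, b', hb', hbd,
    (hG.subgroup T).quotient N', hlt, hmor.trans k (IsMoritaEquivalent.of_algEquiv k ?_)⟩
  refine
    { toFun := fun x => toCorner hb'.idem (toCorner hf x.1 (hfD x).1 (hfD x).2)
        (Subtype.ext (hD x).1)
        (Subtype.ext (hD x).2)
      invFun := fun z => toCorner (U.idem hb.idem hb.central i₀) z.1.1
        (by rw [hUE]; exact congrArg Subtype.val (mem_corner hb'.idem z).1)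
        (by rw [hUE]; exact congrArg Subtype.val (mem_corner hb'.idem z).2)
      left_inv := fun x => rfl
      right_inv := fun z => rfl
      map_mul' := fun x y => rfl
      map_add' := fun x y => rfl
      commutes' := fun r => Subtype.ext (Subtype.ext (by
        change r • (b * U.E i₀ i₀) = r • (b * f); rw [hUE])) }

end Vale.Agent.P180
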