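import Vale.Agent.P180.Defs

/-!
Twisted group algebras, presented by a basis, and the equivariant-sum form of a defect bound.
-/

namespace Vale.Agent.P180

universe u

open Module

variable {k : Type u} [Field k] {G : Type} [Group G]
variable {A : Type u} [Ring A] [Algebra k A]

/-- A basis indexed by a group making `A` a twisted group algebra. -/
structure TwBasis (k : Type u) [Field k] (G : Type) [Group G] (A : Type u) [Ring A] [Algebra k A]
    where
  basis : Basis G k A
  c : G → G → k
  c_ne : ∀ g h, c g h ≠ 0
  mul : ∀ g h, basis g * basis h = c g h • basis (g * h)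

namespace TwBasis

variable (B : TwBasis k G A)

theorem smul_basis_inj {g : G} {r s : k} (h : r • B.basis g = s • B.basis g) : r = s := by
  by_contra hne
  have h0 : (r - s) • B.basis g = 0 := by rw [sub_smul, h, sub_self]
  rcases smul_eq_zero.1 h0 with h1 | h1
  · exact hne (sub_eq_zero.1 h1)
  · exact B.basis.ne_zero g h1

theorem cocycle (g h l : G) : B.c g h * B.c (g * h) l = B.c h l * B.c g (h * l) := by
  have e := mul_assoc (B.basis g) (B.basis h) (B.basis l)
  rw [B.mul, B.mul, smul_mul_assoc, mul_smul_comm, B.mul, B.mul, smul_smul, smul_smul,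
    mul_assoc] at e
  exact B.smul_basis_inj e

theorem c_one_left (g : G) : B.c 1 g = B.c 1 1 := by
  have h := B.cocycle 1 1 g
  simp only [mul_one, one_mul] at h
  exact mul_right_cancel₀ (B.c_ne 1 g) h.symm

theorem basis_one_eq : B.basis 1 = B.c 1 1 • (1 : A) := by
  have : LinearMap.mulLeft k (B.basis 1) = B.c 1 1 • LinearMap.id := by
    refine B.basis.ext fun g => ?_
    simp [B.mul, B.c_one_left]
  have h := LinearMap.congr_fun this 1
  simpa using h

/-- The inverse of a basis vector. -/
noncomputable def inv (g : G) : A := (B.c g g⁻¹ * B.c 1 1)⁻¹ • B.basis g⁻¹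

theorem mul_inv (g : G) : B.basis g * B.inv g = 1 := by
  rw [inv, mul_smul_comm, B.mul, mul_inv_cancel, B.basis_one_eq, smul_smul, smul_smul,
    mul_assoc, inv_mul_cancel₀, one_smul]
  exact mul_ne_zero (B.c_ne _ _) (B.c_ne _ _)

theorem inv_mul (g : G) : B.inv g * B.basis g = 1 := by
  have h := B.cocycle g g⁻¹ g
  rw [mul_inv_cancel, inv_mul_cancel, B.c_one_left] at h
  have h1 : B.c g 1 = B.c 1 1 := by
    have := B.cocycle g 1 1
    simp only [mul_one] at this
    exact mul_right_cancel₀ (B.c_ne g 1) this
  rw [h1] at h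
  rw [inv, smul_mul_assoc, B.mul, inv_mul_cancel, B.basis_one_eq, smul_smul, smul_smul, h,
    mul_assoc, inv_mul_cancel₀, one_smul]
  exact mul_ne_zero (B.c_ne _ _) (B.c_ne _ _)

theorem basis_mem (g h : G) :
    B.basis (g * h) = (B.c g h)⁻¹ • (B.basis g * B.basis h) := by
  rw [B.mul, inv_smul_smul₀ (B.c_ne g h)]

/-- Conjugation by a basis vector. -/
noncomputable def act (g : G) : A ≃ₐ[k] A :=
  AlgEquiv.ofAlgHom
    { toFun := fun a => B.basis g * a * B.inv g
      map_one' := by rw [mul_one, B.mul_inv]
      map_mul' := fun a b => by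
        simp only [mul_assoc]
        rw [← mul_assoc (B.inv g) (B.basis g), B.inv_mul, one_mul]
      map_zero' := by simp
      map_add' := fun a b => by simp [mul_add, add_mul]
      commutes' := fun r => by rw [← Algebra.commutes r (B.basis g), mul_assoc, B.mul_inv, mul_one] }
    { toFun := fun a => B.inv g * a * B.basis g
      map_one' := by rw [mul_one, B.inv_mul]
      map_mul' := fun a b => by
        simp only [mul_assoc]
        rw [← mul_assoc (B.basis g) (B.inv g), B.mul_inv, one_mul]
      map_zero' := by simp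
      map_add' := fun a b => by simp [mul_add, add_mul]
      commutes' := fun r => by rw [← Algebra.commutes r (B.inv g), mul_assoc, B.inv_mul, mul_one] }
    (AlgHom.ext fun a => by
      change B.basis g * (B.inv g * a * B.basis g) * B.inv g = a
      simp only [mul_assoc]
      rw [B.mul_inv, mul_one, ← mul_assoc, B.mul_inv, one_mul])
    (AlgHom.ext fun a => by
      change B.inv g * (B.basis g * a * B.inv g) * B.basis g = a
      simp only [mul_assoc]
      rw [B.inv_mul, mul_one, ← mul_assoc, B.inv_mul, one_mul])

theorem act_apply (g : G) (a : A) : B.act g a = B.basis g * a * B.inv g := rfl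

theorem basis_mul (g : G) (a : A) : B.basis g * a = B.act g a * B.basis g := by
  rw [act_apply, mul_assoc, B.inv_mul, mul_one]

theorem act_eq_iff (g : G) (a a' : A) : B.act g a = a' ↔ B.basis g * a = a' * B.basis g := by
  constructor
  · rintro rfl
    exact B.basis_mul g a
  · intro h
    rw [act_apply, h, mul_assoc, B.mul_inv, mul_one]

theorem act_mul (g h : G) (a : A) : B.act (g * h) a = B.act g (B.act h a) := by
  rw [act_eq_iff, B.basis_mem, mul_smul_comm, smul_mul_assoc, mul_assoc, B.basis_mul h,
    ← mul_assoc, B.basis_mul g, mul_assoc]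

theorem act_one (a : A) : B.act 1 a = a := by
  rw [act_eq_iff, B.basis_one_eq, smul_mul_assoc, mul_smul_comm, one_mul, mul_one]

theorem act_inv_act (g : G) (a : A) : B.act g⁻¹ (B.act g a) = a := by
  rw [← B.act_mul, inv_mul_cancel, B.act_one]

theorem act_of_commute {g : G} {a : A} (h : Commute (B.basis g) a) : B.act g a = a :=
  (B.act_eq_iff g a a).2 h.eq

theorem commute_of_forall {a : A} (h : ∀ g, B.basis g * a = a * B.basis g) (x : A) :
    Commute a x := by
  have : LinearMap.mulRight k a = LinearMap.mulLeft k a := by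
    refine B.basis.ext fun g => ?_
    simpa using h g
  exact (LinearMap.congr_fun this x).symm

theorem act_basis (g h : G) : ∃ r : k, B.act g (B.basis h) = r • B.basis (g * h * g⁻¹) := by
  refine ⟨B.c g h * ((B.c g g⁻¹ * B.c 1 1)⁻¹ * B.c (g * h) g⁻¹), ?_⟩
  rw [act_apply, B.mul, smul_mul_assoc, inv, mul_smul_comm, B.mul, smul_smul, smul_smul,
    mul_assoc]

/-- The equivariant-sum form of a defect bound: `b` is a sum of an equivariant family indexed by
a finite `G`-set all of whose stabilisers have at most `d` elements. -/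
def Bounded (d : ℕ) (b : A) : Prop :=
  ∃ (X : Type) (_ : Fintype X) (_ : MulAction G X) (a : X → A),
    (∀ g x, B.basis g * a x = a (g • x) * B.basis g) ∧
    (∀ x : X, Nat.card (MulAction.stabilizer G x) ≤ d) ∧ ∑ x, a x = b

/-- The span of the basis vectors indexed by a subgroup. -/
noncomputable def sub (N : Subgroup G) : Submodule k A :=
  Submodule.span k (B.basis '' (N : Set G))

theorem basis_mem_sub {N : Subgroup G} {n : G} (hn : n ∈ N) : B.basis n ∈ B.sub N :=
  Submodule.subset_span ⟨n, hn, rfl⟩

theorem repr_eq_zero {N : Subgroup G} {a : A} (ha : a ∈ B.sub N) {g : G} (hg : g ∉ N) :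
    B.basis.repr a g = 0 := by
  have h := B.basis.mem_span_image.1 ha
  by_contra hne
  exact hg (h (Finsupp.mem_support_iff.2 hne))

theorem sub_mul {N : Subgroup G} {a a' : A} (ha : a ∈ B.sub N) (ha' : a' ∈ B.sub N) :
    a * a' ∈ B.sub N := by
  have h : a * a' ∈ B.sub N * B.sub N := Submodule.mul_mem_mul ha ha'
  refine Submodule.mul_le.2 ?_ h
  intro x hx y hy
  induction hx using Submodule.span_induction with
  | mem x hx =>
    obtain ⟨n, hn, rfl⟩ := hx
    induction hy using Submodule.span_induction with
    | mem y hy =>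
      obtain ⟨l, hl, rfl⟩ := hy
      rw [B.mul]
      exact Submodule.smul_mem _ _ (B.basis_mem_sub (N.mul_mem hn hl))
    | zero => simp
    | add y z _ _ iy iz => rw [mul_add]; exact Submodule.add_mem _ iy iz
    | smul r y _ iy => rw [mul_smul_comm]; exact Submodule.smul_mem _ _ iy
  | zero => simp
  | add x z _ _ ix iz => rw [add_mul]; exact Submodule.add_mem _ ix iz
  | smul r x _ ix => rw [smul_mul_assoc]; exact Submodule.smul_mem _ _ ix

theorem one_mem_sub (N : Subgroup G) : (1 : A) ∈ B.sub N := by
  have h := Submodule.smul_mem (B.sub N) (B.c 1 1)⁻¹ (B.basis_mem_sub N.one_mem)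
  rwa [B.basis_one_eq, inv_smul_smul₀ (B.c_ne 1 1)] at h

/-- The twisted group algebra of a subgroup inside `A`. -/
noncomputable def subAlg (N : Subgroup G) : Subalgebra k A :=
  (B.sub N).toSubalgebra (B.one_mem_sub N) fun _ _ => B.sub_mul

theorem mem_subAlg {N : Subgroup G} {a : A} : a ∈ B.subAlg N ↔ a ∈ B.sub N := Iff.rfl

theorem act_mem_sub {N : Subgroup G} [hN : N.Normal] (g : G) {a : A} (ha : a ∈ B.sub N) :
    B.act g a ∈ B.sub N := by
  induction ha using Submodule.span_induction with
  | mem x hx =>
    obtain ⟨n, hn, rfl⟩ := hx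
    obtain ⟨r, hr⟩ := B.act_basis g n
    rw [hr]
    exact Submodule.smul_mem _ _ (B.basis_mem_sub (hN.conj_mem n hn g))
  | zero => simp
  | add x y _ _ ix iy => rw [map_add]; exact Submodule.add_mem _ ix iy
  | smul r x _ ix => rw [map_smul]; exact Submodule.smul_mem _ _ ix

end TwBasis

/-- The restriction of the basis to a subgroup. -/
noncomputable def TwBasis.restrict (B : TwBasis k G A) (N : Subgroup G) :
    TwBasis k N (B.subAlg N) where
  basis := Basis.mk
    (v := fun n : N => (⟨B.basis n, B.basis_mem_sub n.2⟩ : B.subAlg N))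
    (LinearIndependent.of_comp (B.subAlg N).val.toLinearMap
      (B.basis.linearIndependent.comp _ Subtype.val_injective))
    (by
      rintro ⟨x, hx⟩ -
      induction hx using Submodule.span_induction with
      | mem x hx =>
        obtain ⟨n, hn, rfl⟩ := hx
        exact Submodule.subset_span ⟨⟨n, hn⟩, rfl⟩
      | zero => exact Submodule.zero_mem _
      | add x y hx' hy' ix iy => exact Submodule.add_mem _ ix iy
      | smul r x hx' ix => exact Submodule.smul_mem _ r ix)
  c n l := B.c n l
  c_ne n l := B.c_ne n l
  mul n l := by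
    apply Subtype.ext
    simp [B.mul]

end Vale.Agent.P180
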